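import Vale.Agent.P160R.Zeros.Bulk

/-!
# The elementary estimates
-/

namespace Vale.Agent.P160R.Zeros

open Finset Filter Real

theorem log_pow_small (k : ℕ) {c : ℝ} (hc : 0 < c) :
    ∀ᶠ n : ℕ in atTop, log n ^ k ≤ c * n := by
  filter_upwards [((isLittleO_pow_log_id_atTop (n := k)).comp_tendsto
    tendsto_natCast_atTop_atTop).def hc] with n hn
  simpa [abs_of_nonneg (Nat.cast_nonneg (α := ℝ) n)] using (le_abs_self _).trans hn

theorem root4_pow_le (n : ℕ) : root4 n ^ 4 ≤ n := by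
  calc root4 n ^ 4 = (root4 n ^ 2) ^ 2 := by ring
    _ ≤ Nat.sqrt n ^ 2 := Nat.pow_le_pow_left (Nat.sqrt_le' _) 2
    _ ≤ n := Nat.sqrt_le' n

theorem lt_root4_succ (n : ℕ) : n < (root4 n + 1) ^ 4 := by
  calc n < (Nat.sqrt n + 1) ^ 2 := Nat.lt_succ_sqrt' n
    _ ≤ ((root4 n + 1) ^ 2) ^ 2 := Nat.pow_le_pow_left (Nat.lt_succ_sqrt' (Nat.sqrt n)) 2
    _ = (root4 n + 1) ^ 4 := by ring

theorem eventually_root4 (a : ℕ) : ∀ᶠ n : ℕ in atTop, a ≤ root4 n :=
  eventually_atTop.2 ⟨a ^ 4, fun n hn => by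
    by_contra h
    have h1 := Nat.pow_le_pow_left (not_le.1 h) 4
    have h2 := lt_root4_succ n
    exact absurd (lt_of_lt_of_le h2 (h1.trans hn)) (lt_irrefl n)⟩

theorem rowCost_pow_le : ∀ᶠ n : ℕ in atTop, ∀ m : ℕ,
    rowCost n ^ m ≤ exp (-(m * log n / 16)) := by
  filter_upwards [eventually_root4 11,
    (tendsto_log_atTop.comp tendsto_natCast_atTop_atTop).eventually_ge_atTop (20 : ℝ)] with n hL hlog m
  have hL0 : (0 : ℝ) < root4 n := by exact_mod_cast (by omega : 0 < root4 n)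
  have h1 : log n ≤ log 16 + 4 * log (root4 n) := by
    have h2 : (n : ℝ) ≤ 16 * (root4 n : ℝ) ^ 4 := by
      have h3 := lt_root4_succ n
      have h4 : (root4 n + 1) ^ 4 ≤ (2 * root4 n) ^ 4 := Nat.pow_le_pow_left (by omega) 4
      have h5 : (n : ℝ) ≤ ((2 * root4 n) ^ 4 : ℕ) := by exact_mod_cast (h3.le.trans h4)
      push_cast at h5
      linarith [h5, mul_pow (2 : ℝ) (root4 n : ℝ) 4]
    have hn : (0 : ℝ) < n := by
      have := root4_pow_le n
      exact_mod_cast lt_of_lt_of_le (Nat.pow_pos (by omega : 0 < root4 n)) this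
    calc log n ≤ log (16 * (root4 n : ℝ) ^ 4) := log_le_log hn h2
      _ = _ := by rw [log_mul (by norm_num) (by positivity), log_pow]; norm_num
  have h16 : log (16 : ℝ) = 4 * log 2 := by
    rw [show (16 : ℝ) = 2 ^ 4 by norm_num, log_pow]; norm_num
  have hq : rowCost n ≤ exp (-(log n / 16)) := by
    rw [← Real.exp_log (show 0 < rowCost n by unfold rowCost; positivity), exp_le_exp, rowCost,
      log_div (by norm_num) (by positivity), log_sqrt hL0.le]
    have : (20 : ℝ) ≤ log n := hlog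
    linarith [log_two_lt_d9]
  calc rowCost n ^ m ≤ exp (-(log n / 16)) ^ m :=
        pow_le_pow_left₀ (by unfold rowCost; positivity) hq m
    _ = _ := by rw [← exp_nat_mul]; congr 1; ring

/-- The number of zeros asked for. -/
noncomputable def zMin (n : ℕ) : ℕ := ⌊320 * (n : ℝ) / log n⌋₊ + 1

theorem dMax_mul_le (n : ℕ) (hn : 2 ≤ n) : (dMax n : ℝ) * log n ≤ n := by
  have hl : 0 < log (n : ℝ) := log_pos (by exact_mod_cast hn)
  rw [← le_div_iff₀ hl]
  exact Nat.floor_le (by positivity)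

theorem two_pow_neg_eq (n : ℕ) : (2 : ℝ) ^ (-(n : ℝ)) = exp (-(n * log 2)) := by
  rw [rpow_def_of_pos two_pos]; ring_nf

theorem nat_le_exp (n : ℕ) : (n : ℝ) + 1 ≤ exp n := add_one_le_exp _

theorem sq_add_le_exp (n : ℕ) : (n : ℝ) ^ 2 + 1 ≤ exp (2 * n) := by
  calc (n : ℝ) ^ 2 + 1 ≤ ((n : ℝ) + 1) ^ 2 := by nlinarith [Nat.cast_nonneg (α := ℝ) n]
    _ ≤ exp n ^ 2 := pow_le_pow_left₀ (by positivity) (nat_le_exp n) 2
    _ = exp (2 * n) := by rw [← exp_nat_mul]; push_cast; ring_nf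

theorem big_estimate : ∀ᶠ n : ℕ in atTop,
    (4 : ℝ) ^ n * (5 * ((n : ℝ) + 1) ^ 3) * rowCost n ^ (zMin n - dMax n - 1) ≤
      (2 : ℝ) ^ (-(n : ℝ)) := by
  filter_upwards [rowCost_pow_le, eventually_ge_atTop 2,
    log_pow_small 1 (show (0 : ℝ) < 1 by norm_num)] with n hq hn hlog
  rw [pow_one, one_mul] at hlog
  have hl : 0 < log (n : ℝ) := log_pos (by exact_mod_cast hn)
  have hm : 318 * (n : ℝ) ≤ ((zMin n - dMax n - 1 : ℕ) : ℝ) * log n := by
    have h1 : 320 * (n : ℝ) / log n ≤ (zMin n : ℝ) := by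
      simp only [zMin, Nat.cast_add, Nat.cast_one]; exact (Nat.lt_floor_add_one _).le
    rw [div_le_iff₀ hl] at h1
    have h2 := dMax_mul_le n hn
    have h3 : (zMin n : ℝ) ≤ ((zMin n - dMax n - 1 : ℕ) : ℝ) + dMax n + 1 := by
      exact_mod_cast (by omega : zMin n ≤ (zMin n - dMax n - 1) + dMax n + 1)
    nlinarith [mul_le_mul_of_nonneg_right h3 hl.le]
  calc _ ≤ exp (2 * n) * (exp (3 * n) * exp (3 * n)) * exp (-(19 * (n : ℝ))) := by
        refine mul_le_mul (mul_le_mul ?_ (mul_le_mul ?_ ?_ (by positivity) (by positivity))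
          (by positivity) (by positivity)) ((hq _).trans (exp_le_exp.2 (by linarith))) ?_
          (by positivity)
        · rw [show (2 : ℝ) * n = n * 2 by ring, exp_nat_mul]
          exact pow_le_pow_left₀ (by norm_num) (by
            nlinarith [add_one_le_exp (1 : ℝ), exp_pos (1 : ℝ),
              (show exp (2 : ℝ) = exp 1 * exp 1 by rw [← exp_add]; norm_num)]) n
        · have : (2 : ℝ) ≤ n := by exact_mod_cast hn
          linarith [add_one_le_exp (3 * (n : ℝ))]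
        · calc ((n : ℝ) + 1) ^ 3 ≤ exp n ^ 3 := pow_le_pow_left₀ (by positivity) (nat_le_exp n) 3
            _ = exp (3 * n) := by rw [← exp_nat_mul]; push_cast; ring_nf
        · unfold rowCost; positivity
    _ = exp (-(11 * (n : ℝ))) := by rw [← exp_add, ← exp_add, ← exp_add]; ring_nf
    _ ≤ _ := by
        rw [two_pow_neg_eq, exp_le_exp]
        nlinarith [log_two_lt_d9, Nat.cast_nonneg (α := ℝ) n]

theorem small_estimate : ∀ᶠ n : ℕ in atTop,
    (2 : ℝ) ^ n * (((n : ℝ) ^ 2 + 1) ^ 2 * (candMax n * rowCost n ^ zMin n)) ≤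
      (2 : ℝ) ^ (-(n : ℝ)) := by
  filter_upwards [rowCost_pow_le, eventually_ge_atTop 2] with n hq hn
  have hl : 0 < log (n : ℝ) := log_pos (by exact_mod_cast hn)
  have h2n : (2 : ℝ) ^ n ≤ exp n := by
    calc (2 : ℝ) ^ n ≤ exp 1 ^ n :=
          pow_le_pow_left₀ (by norm_num) (by linarith [add_one_le_exp (1 : ℝ)]) n
      _ = exp n := by rw [← exp_nat_mul, mul_one]
  have hZ : 320 * (n : ℝ) ≤ (zMin n : ℝ) * log n := by
    rw [← div_le_iff₀ hl]
    simp only [zMin, Nat.cast_add, Nat.cast_one]; exact (Nat.lt_floor_add_one _).le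
  have hc : (candMax n : ℝ) ≤ exp (2 * n) * exp n * exp (2 * n) := by
    simp only [candMax, Nat.cast_mul, Nat.cast_pow, Nat.cast_ofNat]
    refine mul_le_mul (mul_le_mul (by linarith [sq_add_le_exp n]) h2n (by positivity) (by positivity))
      ?_ (by positivity) (by positivity)
    rw [← exp_log (show (0 : ℝ) < ((n : ℝ) ^ 2) ^ dMax n by
        have : 0 < (n : ℝ) := by exact_mod_cast (by omega : 0 < n)
        positivity), exp_le_exp, log_pow, log_pow]
    push_cast
    linarith [dMax_mul_le n hn]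
  calc _ ≤ exp n * (exp (2 * n) ^ 2 * (exp (2 * n) * exp n * exp (2 * n) *
        exp (-(20 * (n : ℝ))))) := by
        refine mul_le_mul h2n (mul_le_mul
          (pow_le_pow_left₀ (by positivity) (sq_add_le_exp n) 2) (mul_le_mul hc
            ((hq _).trans (exp_le_exp.2 (by linarith))) ?_ (by positivity)) ?_ (by positivity)) ?_
          (by positivity) <;> unfold rowCost <;> positivity
    _ = exp (-(10 * (n : ℝ))) := by
        rw [← exp_nat_mul, ← exp_add, ← exp_add, ← exp_add, ← exp_add, ← exp_add]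
        push_cast; ring_nf
    _ ≤ _ := by
        rw [two_pow_neg_eq, exp_le_exp]
        nlinarith [log_two_lt_d9, Nat.cast_nonneg (α := ℝ) n]

theorem defic_estimate : ∀ᶠ n : ℕ in atTop,
    (4 : ℝ) ^ n * ((pBig n : ℝ) + 3) * (1 / 2 : ℝ) ^ (dMax n).choose 2 ≤
      (2 : ℝ) ^ (-(n : ℝ)) := by
  filter_upwards [eventually_ge_atTop 8, log_pow_small 3 (show (0 : ℝ) < 1 / 176 by norm_num),
    log_pow_small 1 (show (0 : ℝ) < 1 / 4 by norm_num)] with n hn hlog hlog1
  rw [pow_one] at hlog1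
  have hn' : (8 : ℝ) ≤ n := by exact_mod_cast hn
  set l := log (n : ℝ) with hl'
  have hl : 1 ≤ l := by
    rw [hl', le_log_iff_exp_le (by positivity)]
    linarith [exp_one_lt_d9]
  set d := dMax n
  have hd : (n : ℝ) / l - 1 ≤ d := by
    have : (n : ℝ) / l < (d : ℝ) + 1 := Nat.lt_floor_add_one _
    linarith
  have hnl : 4 ≤ (n : ℝ) / l := by rw [le_div_iff₀ (by linarith)]; linarith
  have hch : ((n : ℝ) / l) ^ 2 / 8 ≤ ((d.choose 2 : ℕ) : ℝ) := by
    rw [Nat.cast_choose_two]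
    nlinarith
  have hp : (4 : ℝ) ^ n * ((pBig n : ℝ) + 3) ≤ exp (10 * n * l) := by
    have h1 : (pBig n : ℝ) + 3 ≤ 4 * ((n : ℝ) + 1) ^ (2 * n) := by
      have h2 : pBig n ≤ (n + 1) ^ (2 * n) := by
        rw [two_mul, pow_add]
        exact Nat.mul_le_mul_right _ ((Nat.factorial_le_pow n).trans
          (Nat.pow_le_pow_left (Nat.le_succ n) n))
      have h3 : (pBig n : ℝ) ≤ ((n : ℝ) + 1) ^ (2 * n) := by exact_mod_cast h2
      have h4 : (1 : ℝ) ≤ ((n : ℝ) + 1) ^ (2 * n) := one_le_pow₀ (by linarith)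
      linarith
    calc _ ≤ (4 : ℝ) ^ n * (4 * ((n : ℝ) + 1) ^ (2 * n)) := by gcongr
      _ = exp (n * log 4 + (log 4 + 2 * n * log ((n : ℝ) + 1))) := by
          rw [exp_add, exp_add, exp_nat_mul, exp_log (by norm_num),
            show (2 : ℝ) * n * log ((n : ℝ) + 1) = ((2 * n : ℕ) : ℝ) * log ((n : ℝ) + 1) by
              push_cast; ring, exp_nat_mul, exp_log (by positivity)]
      _ ≤ _ := by
          rw [exp_le_exp]
          have h4 : log (4 : ℝ) ≤ 2 := by
            rw [show (4 : ℝ) = 2 ^ 2 by norm_num, log_pow]; push_cast; linarith [log_two_lt_d9]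
          have h5 : log ((n : ℝ) + 1) ≤ 2 * l := by
            calc log ((n : ℝ) + 1) ≤ log ((n : ℝ) ^ 2) := log_le_log (by positivity) (by nlinarith)
              _ = _ := by rw [log_pow]; push_cast; ring
          nlinarith
  rw [two_pow_neg_eq]
  calc _ ≤ exp (10 * n * l) * exp (-(log 2 * d.choose 2)) := by
        refine mul_le_mul hp (Eq.le ?_) (by positivity) (by positivity)
        rw [show -(log 2 * (d.choose 2 : ℕ)) = ((d.choose 2 : ℕ) : ℝ) * log (1 / 2) by
          rw [one_div, log_inv]; ring, exp_nat_mul, exp_log (by norm_num)]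
    _ ≤ _ := by
        rw [← exp_add, exp_le_exp]
        have h6 : 1 / 2 * (((n : ℝ) / l) ^ 2 / 8) ≤ log 2 * ((d.choose 2 : ℕ) : ℝ) :=
          mul_le_mul (by linarith [log_two_gt_d9]) hch (by positivity) (log_pos (by norm_num)).le
        have h7 : 176 * (n : ℝ) * l ≤ ((n : ℝ) / l) ^ 2 := by
          rw [div_pow, le_div_iff₀ (by positivity)]
          nlinarith [mul_le_mul_of_nonneg_left hlog (show (0 : ℝ) ≤ 176 * n by positivity)]
        nlinarith [log_two_lt_d9]

theorem units_estimate (ε : ℝ) (hε : 0 < ε) : ∀ᶠ n : ℕ in atTop,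
    (4 * ((n : ℝ) + 1)) ^ (4 * uMin n + 8) * (1 / 2 : ℝ) ^ n ≤
      (2 : ℝ) ^ (-(1 - ε) * n) := by
  have hc : 0 < ε * log 2 / 36 := by have := log_pos (one_lt_two (α := ℝ)); positivity
  filter_upwards [eventually_ge_atTop 8, eventually_root4 1,
    log_pow_small 4 (pow_pos hc 4)] with n hn hL hlog
  have hn' : (8 : ℝ) ≤ n := by exact_mod_cast hn
  set l := log (n : ℝ)
  set u := uMin n
  have hu1 : (1 : ℝ) ≤ u := by exact_mod_cast Nat.one_le_pow 3 _ hL
  have hl : 0 ≤ l := log_nonneg (by linarith)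
  have hul : (u : ℝ) * l ≤ ε * log 2 / 36 * n := by
    refine (pow_le_pow_iff_left₀ (by positivity) (by positivity) (by norm_num : 4 ≠ 0)).1 ?_
    have hu4 : u ^ 4 ≤ n ^ 3 := by
      calc u ^ 4 = (root4 n ^ 4) ^ 3 := by simp only [u, uMin]; ring
        _ ≤ _ := Nat.pow_le_pow_left (root4_pow_le n) 3
    have hu4' : (u : ℝ) ^ 4 ≤ (n : ℝ) ^ 3 := by exact_mod_cast hu4
    calc ((u : ℝ) * l) ^ 4 = (u : ℝ) ^ 4 * l ^ 4 := mul_pow _ _ _
      _ ≤ (n : ℝ) ^ 3 * ((ε * log 2 / 36) ^ 4 * n) :=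
          mul_le_mul hu4' hlog (by positivity) (by positivity)
      _ = _ := by ring
  have hl3 : log (4 * ((n : ℝ) + 1)) ≤ 3 * l := by
    calc _ ≤ log ((n : ℝ) ^ 3) := log_le_log (by positivity) (by nlinarith [mul_le_mul_of_nonneg_left (show (64 : ℝ) ≤ n * n by nlinarith) (show (0 : ℝ) ≤ n by positivity)])
      _ = _ := by rw [log_pow]; push_cast; ring
  rw [rpow_def_of_pos two_pos]
  calc _ = exp (((4 * u + 8 : ℕ) : ℝ) * log (4 * ((n : ℝ) + 1)) + (n : ℝ) * log (1 / 2)) := by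
        rw [exp_add, exp_nat_mul, exp_nat_mul, exp_log (by positivity), exp_log (by norm_num)]
    _ ≤ _ := by
        rw [exp_le_exp, one_div, log_inv]
        push_cast
        nlinarith [mul_le_mul_of_nonneg_left hl3 (show (0 : ℝ) ≤ 4 * (u : ℝ) + 8 by positivity),
          mul_le_mul_of_nonneg_right hu1 hl]

end Vale.Agent.P160R.Zeros
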