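import Mathlib

/-!
# A small ball bound for signed sums in a finite abelian group

The energy of the distribution of a signed sum drops by a fixed factor at every step whose double
has order at least `L`, as long as it exceeds `2 / L`.
-/

namespace Vale.Agent.P160R.Zeros

open Finset
open scoped Classical

variable {G : Type*} [AddCommGroup G]

/-- An element with a sign. -/
def sg (b : Bool) (x : G) : G := if b then x else -x

theorem map_sg {H : Type*} [AddCommGroup H] (φ : G →+ H) (b : Bool) (x : G) :
    φ (sg b x) = sg b (φ x) := by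
  cases b <;> simp [sg]

/-- The energy. -/
def energy [Fintype G] (f : G → ℝ) : ℝ := ∑ x, f x ^ 2

/-- One signed step. -/
noncomputable def step (w : G) (f : G → ℝ) (x : G) : ℝ := (f (x - w) + f (x + w)) / 2

/-- The distribution of a signed sum. -/
noncomputable def prob : (t : ℕ) → (Fin t → G) → G → ℝ
  | 0, _, x => if x = 0 then 1 else 0
  | t + 1, w, x => step (w 0) (prob t fun i => w i.succ) x

theorem prob_nonneg : ∀ (t : ℕ) (w : Fin t → G) (x : G), 0 ≤ prob t w x
  | 0, _, x => by simp only [prob]; split <;> norm_num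
  | t + 1, w, x => by
    have h1 := prob_nonneg t (fun i => w i.succ) (x - w 0)
    have h2 := prob_nonneg t (fun i => w i.succ) (x + w 0)
    simp only [prob, step]
    linarith

variable [Fintype G]

theorem sum_shift (f : G → ℝ) (a : G) : ∑ x, f (x + a) = ∑ x, f x :=
  Fintype.sum_equiv (Equiv.addRight a) _ _ fun _ => rfl

theorem sum_prob : ∀ (t : ℕ) (w : Fin t → G), ∑ x, prob t w x = 1
  | 0, _ => by simp [prob]
  | t + 1, w => by
    have h := sum_prob t fun i => w i.succ
    simp only [prob, step, ← sum_div, sum_add_distrib, sub_eq_add_neg, sum_shift, h]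
    norm_num

theorem energy_step (w : G) (f : G → ℝ) :
    energy (step w f) = energy f - (∑ x, (f x - f (x + (w + w))) ^ 2) / 4 := by
  have key : ∀ x, step w f (x + w) ^ 2 + (f x - f (x + (w + w))) ^ 2 / 4 =
      (f x ^ 2 + f (x + (w + w)) ^ 2) / 2 := by
    intro x
    simp only [step, add_sub_cancel_right, add_assoc]
    ring
  have h := Finset.sum_congr (rfl : (univ : Finset G) = univ) fun x _ => key x
  rw [sum_add_distrib, ← sum_div, ← sum_div, sum_add_distrib,
    sum_shift (fun x => step w f x ^ 2) w, sum_shift (fun x => f x ^ 2) (w + w)] at h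
  simp only [energy] at h ⊢
  linarith

theorem energy_step_le (w : G) (f : G → ℝ) : energy (step w f) ≤ energy f := by
  rw [energy_step]
  have : 0 ≤ ∑ x, (f x - f (x + (w + w))) ^ 2 := sum_nonneg fun _ _ => sq_nonneg _
  linarith

theorem sum_sq_diff_le (u : G) (f : G → ℝ) (k : ℕ) :
    ∑ x, (f x - f (x + k • u)) ^ 2 ≤ (k : ℝ) ^ 2 * ∑ x, (f x - f (x + u)) ^ 2 := by
  calc ∑ x, (f x - f (x + k • u)) ^ 2
      ≤ ∑ x, (k : ℝ) * ∑ i ∈ range k, (f (x + i • u) - f (x + (i + 1) • u)) ^ 2 := by
        refine sum_le_sum fun x _ => ?_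
        have h := sum_range_sub' (fun i => f (x + i • u)) k
        simp only [zero_smul, add_zero] at h
        rw [← h]
        simpa using sq_sum_le_card_mul_sum_sq (s := range k)
          (f := fun i => f (x + i • u) - f (x + (i + 1) • u))
    _ = (k : ℝ) ^ 2 * ∑ x, (f x - f (x + u)) ^ 2 := by
        rw [← mul_sum, sum_comm]
        have : ∀ i ∈ range k, ∑ x, (f (x + i • u) - f (x + (i + 1) • u)) ^ 2 =
            ∑ x, (f x - f (x + u)) ^ 2 := by
          intro i _
          rw [← sum_shift (fun x => (f x - f (x + u)) ^ 2) (i • u)]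
          simp only [add_smul, one_smul, add_assoc]
        rw [sum_congr rfl this, sum_const, card_range, nsmul_eq_mul]
        ring

theorem energy_drop {L : ℕ} (hL : 1 ≤ L) (w : G) (hw : ∀ k, 0 < k → k < L → k • (w + w) ≠ 0)
    (f : G → ℝ) (hf : ∀ x, 0 ≤ f x) (h1 : ∑ x, f x = 1) (hE : 2 / (L : ℝ) ≤ energy f) :
    energy (step w f) ≤ (1 - 1 / (4 * (L : ℝ) ^ 2)) * energy f := by
  set u := w + w
  set D := ∑ x, (f x - f (x + u)) ^ 2
  have hinj : Set.InjOn (fun k : ℕ => k • u) (range L : Set ℕ) := by
    have key : ∀ a b : ℕ, a < b → b < L → a • u ≠ b • u := fun a b h1 h2 hab => by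
      refine hw (b - a) (by omega) (by omega) ?_
      have h3 : (b - a) • u + a • u = a • u := by
        rw [← add_smul, Nat.sub_add_cancel h1.le, hab]
      simpa using h3
    intro a ha b hb hab
    simp only [coe_range, Set.mem_Iio] at ha hb
    rcases lt_trichotomy a b with h | h | h
    · exact absurd hab (key a b h hb)
    · exact h
    · exact absurd hab.symm (key b a h ha)
  have hC : ∑ k ∈ range L, ∑ x, f x * f (x + k • u) ≤ 1 := by
    rw [sum_comm]
    calc ∑ x, ∑ k ∈ range L, f x * f (x + k • u) ≤ ∑ x, f x * 1 := by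
          refine sum_le_sum fun x _ => ?_
          rw [← mul_sum]
          refine mul_le_mul_of_nonneg_left ?_ (hf x)
          rw [← sum_image (g := fun k => x + k • u) fun a ha b hb hab =>
            hinj ha hb (add_left_cancel hab), ← h1]
          exact sum_le_sum_of_subset_of_nonneg (subset_univ _) fun y _ _ => hf y
      _ = 1 := by simp [h1]
  have hk : ∀ k : ℕ, ∑ x, (f x - f (x + k • u)) ^ 2 =
      2 * energy f - 2 * ∑ x, f x * f (x + k • u) := by
    intro k
    simp only [sub_sq, sum_add_distrib, sum_sub_distrib, mul_assoc, ← mul_sum]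
    rw [sum_shift (fun x => f x ^ 2) (k • u)]
    simp only [energy]
    ring
  have hD : 0 ≤ D := sum_nonneg fun _ _ => sq_nonneg _
  have hlo : (L : ℝ) * energy f ≤ (L : ℝ) ^ 3 * D := by
    have h2 : (2 : ℝ) ≤ L * energy f := by rwa [div_le_iff₀' (by positivity)] at hE
    have h3 : ∑ k ∈ range L, ∑ x, (f x - f (x + k • u)) ^ 2 ≤ (L : ℝ) ^ 3 * D := by
      calc _ ≤ ∑ k ∈ range L, (L : ℝ) ^ 2 * D := by
            refine sum_le_sum fun k hk => (sum_sq_diff_le u f k).trans ?_
            refine mul_le_mul_of_nonneg_right ?_ hD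
            exact pow_le_pow_left₀ (by positivity) (by exact_mod_cast (mem_range.1 hk).le) 2
        _ = _ := by rw [sum_const, card_range, nsmul_eq_mul]; ring
    simp only [hk, sum_sub_distrib, sum_const, card_range, nsmul_eq_mul, ← mul_sum] at h3
    linarith
  rw [energy_step, sub_mul, one_mul]
  have hL0 : (0 : ℝ) < L := by exact_mod_cast hL
  have : energy f / (4 * (L : ℝ) ^ 2) ≤ D / 4 := by
    rw [div_le_div_iff₀ (by positivity) (by norm_num)]
    nlinarith
  rw [one_div_mul_eq_div]
  linarith

theorem energy_prob_le {L : ℕ} (hL : 1 ≤ L) : ∀ (t : ℕ) (w : Fin t → G),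
    energy (prob t w) ≤ max (2 / (L : ℝ)) ((1 - 1 / (4 * (L : ℝ) ^ 2)) ^
      (univ.filter fun j => ∀ k, 0 < k → k < L → k • (w j + w j) ≠ 0).card)
  | 0, w => by simp [energy, prob]
  | t + 1, w => by
    set f := prob t fun i => w i.succ
    set good : G → Prop := fun v => ∀ k, 0 < k → k < L → k • (v + v) ≠ 0
    have ih := energy_prob_le hL t fun i => w i.succ
    have he : energy (prob (t + 1) w) = energy (step (w 0) f) := rfl
    have hρ : (0 : ℝ) ≤ 1 - 1 / (4 * (L : ℝ) ^ 2) := by
      have : (1 : ℝ) ≤ L := by exact_mod_cast hL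
      rw [sub_nonneg, div_le_one (by positivity)]
      nlinarith
    have hcard : (univ.filter fun j => good (w j)).card =
        (if good (w 0) then 1 else 0) + (univ.filter fun i : Fin t => good (w i.succ)).card := by
      simp only [card_filter, Fin.sum_univ_succ]
    rw [he, hcard]
    by_cases hg : good (w 0)
    · rw [if_pos hg, add_comm 1, pow_succ']
      rcases le_total (energy f) (2 / (L : ℝ)) with h | h
      · exact ((energy_step_le _ _).trans h).trans (le_max_left _ _)
      refine (energy_drop hL _ hg f (prob_nonneg _ _) (sum_prob _ _) h).trans ?_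
      refine (mul_le_mul_of_nonneg_left ih hρ).trans ?_
      rw [mul_max_of_nonneg _ _ hρ]
      refine max_le_max ?_ le_rfl
      refine mul_le_of_le_one_left (by positivity) ?_
      rw [sub_le_self_iff]
      positivity
    · rw [if_neg hg, zero_add]
      exact (energy_step_le _ _).trans ih

theorem prob_le_half : ∀ (t : ℕ) (w : Fin t → G), (∃ j, w j + w j ≠ 0) → ∀ x, prob t w x ≤ 1 / 2
  | 0, _, h, _ => h.elim fun j _ => j.elim0
  | t + 1, w, h, x => by
    set f := prob t fun i => w i.succ
    change (f (x - w 0) + f (x + w 0)) / 2 ≤ 1 / 2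
    by_cases h0 : w 0 + w 0 = 0
    · obtain ⟨j, hj⟩ := h
      obtain ⟨i, rfl⟩ := Fin.exists_succ_eq.2 (fun hj0 : j = 0 => hj (hj0 ▸ h0))
      have h1 := prob_le_half t (fun i => w i.succ) ⟨i, hj⟩ (x - w 0)
      have h2 := prob_le_half t (fun i => w i.succ) ⟨i, hj⟩ (x + w 0)
      linarith
    · have hne : x - w 0 ≠ x + w 0 := fun hx => h0 <| by
        calc w 0 + w 0 = (x + w 0) - (x - w 0) := by abel
          _ = 0 := by rw [hx, sub_self]
      have : f (x - w 0) + f (x + w 0) ≤ 1 := by
        rw [← sum_prob t fun i => w i.succ, ← sum_pair hne]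
        exact sum_le_sum_of_subset_of_nonneg (subset_univ _) fun y _ _ => prob_nonneg _ _ y
      linarith

omit [Fintype G] in
theorem card_sum_eq_prob : ∀ (t : ℕ) (w : Fin t → G) (x : G),
    ((univ.filter fun y : Fin t → Bool => ∑ i, sg (y i) (w i) = x).card : ℝ) =
      prob t w x * 2 ^ t
  | 0, w, x => by
    simp only [prob, card_filter]
    simp [eq_comm]
  | t + 1, w, x => by
    have h1 := card_sum_eq_prob t (fun i => w i.succ) (x - w 0)
    have h2 := card_sum_eq_prob t (fun i => w i.succ) (x + w 0)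
    have hs : (univ.filter fun y : Fin (t + 1) → Bool => ∑ i, sg (y i) (w i) = x).card =
        (univ.filter fun y : Fin t → Bool => ∑ i, sg (y i) (w i.succ) = x - w 0).card +
        (univ.filter fun y : Fin t → Bool => ∑ i, sg (y i) (w i.succ) = x + w 0).card := by
      simp only [card_filter]
      rw [← (Fin.consEquiv fun _ : Fin (t + 1) => Bool).sum_comp, Fintype.sum_prod_type,
        Fintype.sum_bool]
      congr 1 <;> refine sum_congr rfl fun y _ => ?_ <;>
        simp only [Fin.consEquiv_apply, Fin.sum_univ_succ, Fin.cons_zero, Fin.cons_succ, sg,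
          if_true, Bool.false_eq_true, if_false, eq_sub_iff_add_eq', neg_add_eq_iff_eq_add,
          add_comm x]
    rw [hs]
    push_cast
    rw [h1, h2]
    simp only [prob, step, pow_succ]
    ring

omit [Fintype G] in
theorem card_sum_eq_equiv {κ : Type*} [Fintype κ] (v : κ → G) (x : G) :
    ((univ.filter fun y : κ → Bool => ∑ j, sg (y j) (v j) = x).card : ℝ) =
      prob (Fintype.card κ) (v ∘ (Fintype.equivFin κ).symm) x * 2 ^ Fintype.card κ := by
  rw [← card_sum_eq_prob]
  set e := Fintype.equivFin κ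
  congr 1
  refine card_bij' (fun y _ => y ∘ e.symm) (fun y _ => y ∘ e) ?_ ?_ ?_ ?_
  · intro y hy
    simp only [mem_filter, mem_univ, true_and, Function.comp_apply] at hy ⊢
    rw [← hy, e.symm.sum_comp fun j => sg (y j) (v j)]
  · intro y hy
    simp only [mem_filter, mem_univ, true_and, Function.comp_apply] at hy ⊢
    rw [← hy, ← e.sum_comp]
    simp
  · intro y _; ext; simp
  · intro y _; ext; simp

/-- With `L ^ 3` steps of order at least `L` every value has probability at most `2 / √L`. -/
theorem ball_pow {κ : Type*} [Fintype κ] (v : κ → G) {L : ℕ} (hL : 1 ≤ L)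
    (hg : L ^ 3 ≤ (univ.filter fun j => ∀ k, 0 < k → k < L → k • (v j + v j) ≠ 0).card) (x : G) :
    ((univ.filter fun y : κ → Bool => ∑ j, sg (y j) (v j) = x).card : ℝ) ≤
      2 / Real.sqrt L * 2 ^ Fintype.card κ := by
  rw [card_sum_eq_equiv]
  refine mul_le_mul_of_nonneg_right ?_ (by positivity)
  set t := Fintype.card κ
  set w := v ∘ (Fintype.equivFin κ).symm
  set g := (univ.filter fun j => ∀ k, 0 < k → k < L → k • (w j + w j) ≠ 0).card with hgdef
  have hg' : L ^ 3 ≤ g := by
    refine hg.trans (Eq.le ?_)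
    exact card_equiv (Fintype.equivFin κ) (by simp [w])
  have hL0 : (0 : ℝ) < L := by exact_mod_cast hL
  have hE : energy (prob t w) ≤ 4 / L := by
    refine (energy_prob_le hL t w).trans (max_le (by gcongr; norm_num) ?_)
    have h1 : 1 / (4 * (L : ℝ) ^ 2) ≤ 1 := by
      have : (1 : ℝ) ≤ L := by exact_mod_cast hL
      rw [div_le_one (by positivity)]
      nlinarith
    calc (1 - 1 / (4 * (L : ℝ) ^ 2)) ^ g
        ≤ (1 - 1 / (4 * (L : ℝ) ^ 2)) ^ (L ^ 3) :=
          pow_le_pow_of_le_one (by linarith) (by rw [sub_le_self_iff]; positivity) hg'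
      _ ≤ Real.exp (-(1 / (4 * (L : ℝ) ^ 2))) ^ (L ^ 3) :=
          pow_le_pow_left₀ (by linarith) (Real.one_sub_le_exp_neg _) _
      _ = Real.exp (-((L : ℝ) / 4)) := by
          rw [← Real.exp_nat_mul]
          congr 1
          push_cast
          field_simp
      _ ≤ ((L : ℝ) / 4)⁻¹ := by
          rw [Real.exp_neg]
          exact inv_anti₀ (by positivity) (by linarith [Real.add_one_le_exp ((L : ℝ) / 4)])
      _ = 4 / L := by rw [inv_div]
  refine le_trans (b := Real.sqrt (4 / L)) (Real.le_sqrt_of_sq_le ?_) (Eq.le ?_)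
  · exact le_trans (single_le_sum (f := fun y => prob t w y ^ 2) (fun y _ => sq_nonneg _)
      (mem_univ x)) hE
  · rw [Real.sqrt_div (by norm_num), show (4 : ℝ) = 2 ^ 2 by norm_num, Real.sqrt_sq (by norm_num)]

/-- A step whose double is nonzero costs one half. -/
theorem ball_half {κ : Type*} [Fintype κ] (v : κ → G) (hv : ∃ j, v j + v j ≠ 0) (x : G) :
    ((univ.filter fun y : κ → Bool => ∑ j, sg (y j) (v j) = x).card : ℝ) ≤
      1 / 2 * 2 ^ Fintype.card κ := by
  rw [card_sum_eq_equiv]
  refine mul_le_mul_of_nonneg_right (prob_le_half _ _ ?_ x) (by positivity)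
  obtain ⟨j, hj⟩ := hv
  exact ⟨Fintype.equivFin κ j, by simpa using hj⟩

end Vale.Agent.P160R.Zeros
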