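import Mathlib

/-!
# Counting kernel vectors modulo prime powers

The kernel modulo `a * b` is at most as large as the product of the kernels modulo `a` and `b`;
for `2 • W - J` the factor two costs only one bit for each coordinate.
-/

namespace Vale.Agent.P160R.Zeros

open Finset Matrix
open scoped Classical

variable {κ : Type} [Fintype κ] [DecidableEq κ]

/-- Representatives modulo `N`. -/
noncomputable def box (N : ℕ) : Finset (κ → ℤ) := Fintype.piFinset fun _ => Ico 0 (N : ℤ)

theorem mem_box {N : ℕ} {z : κ → ℤ} : z ∈ box N ↔ ∀ j, 0 ≤ z j ∧ z j < N := by simp [box]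

/-- The kernel modulo `N`. -/
noncomputable def zk (M : Matrix κ κ ℤ) (N : ℕ) : Finset (κ → ℤ) :=
  (box N).filter fun z => ∀ i, (N : ℤ) ∣ M.mulVec z i

omit [DecidableEq κ] in
theorem mulVec_emod (M : Matrix κ κ ℤ) (N : ℤ) (z : κ → ℤ) (i : κ) :
    N ∣ M.mulVec (fun j => z j % N) i - M.mulVec z i := by
  simp only [mulVec, dotProduct, ← sum_sub_distrib]
  refine dvd_sum fun j _ => ?_
  rw [← mul_sub]
  exact dvd_mul_of_dvd_right (Int.modEq_iff_dvd.1 (Int.mod_modEq (z j) N).symm) _

theorem emod_mem_box {N : ℕ} (hN : 0 < N) (z : κ → ℤ) : (fun j => z j % (N : ℤ)) ∈ box N :=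
  mem_box.2 fun _ => ⟨Int.emod_nonneg _ (by omega), Int.emod_lt_of_pos _ (by omega)⟩

/-- An affine system has at most as many solutions as the linear one. -/
theorem card_affine_le (M : Matrix κ κ ℤ) {N : ℕ} (hN : 0 < N) (F : Finset (κ → ℤ)) (b : κ → ℤ)
    (hF : ∀ z ∈ F, z ∈ box N ∧ ∀ i, (N : ℤ) ∣ M.mulVec z i - b i) : F.card ≤ (zk M N).card := by
  rcases F.eq_empty_or_nonempty with rfl | ⟨z₀, hz₀⟩
  · simp
  refine card_le_card_of_injOn (fun z j => (z j - z₀ j) % (N : ℤ)) (fun z hz => ?_) ?_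
  · rw [mem_coe, zk, mem_filter]
    refine ⟨emod_mem_box hN _, fun i => ?_⟩
    have h1 := mulVec_emod M (N : ℤ) (z - z₀) i
    have h2 : (N : ℤ) ∣ M.mulVec (z - z₀) i := by
      have := dvd_sub ((hF z hz).2 i) ((hF z₀ hz₀).2 i)
      simpa [mulVec_sub] using this
    simpa using dvd_add h1 h2
  · intro z hz y hy h
    funext j
    have h1 := mem_box.1 (hF z hz).1 j
    have h2 := mem_box.1 (hF y hy).1 j
    obtain ⟨k, hk⟩ := Int.modEq_iff_dvd.1 (congrFun h j : (z j - z₀ j) ≡ (y j - z₀ j) [ZMOD N])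
    have : k = 0 := by
      have hlt : (N : ℤ) * k < N * 1 := by rw [← hk]; omega
      have hgt : (N : ℤ) * (-1) < N * k := by rw [← hk]; omega
      have := lt_of_mul_lt_mul_left hlt (by omega)
      have := lt_of_mul_lt_mul_left hgt (by omega)
      omega
    subst this
    omega

theorem zk_mul_le (M : Matrix κ κ ℤ) {a b : ℕ} (ha : 0 < a) (hb : 0 < b) :
    (zk M (a * b)).card ≤ (zk M a).card * (zk M b).card := by
  refine (card_le_mul_card_image (f := fun z j => z j % (a : ℤ)) _ (zk M b).card ?_).trans ?_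
  · intro r hr
    obtain ⟨z₀, -, hz₀⟩ := mem_image.1 hr
    rcases eq_or_ne ((zk M (a * b)).filter fun z => (fun j => z j % (a : ℤ)) = r) ∅ with h | h
    · rw [h]; simp
    obtain ⟨y₀, hy₀⟩ := nonempty_iff_ne_empty.2 h
    set q : (κ → ℤ) → κ → ℤ := fun z j => z j / (a : ℤ)
    refine le_trans (Eq.le (card_image_of_injOn (f := q) ?_).symm)
      (card_affine_le M hb _ (M.mulVec (q y₀)) ?_)
    · intro z hz y hy hq
      simp only [mem_coe, mem_filter] at hz hy
      funext j
      rw [← Int.mul_ediv_add_emod (z j) a, ← Int.mul_ediv_add_emod (y j) a]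
      rw [show z j / (a : ℤ) = y j / a from congrFun hq j, congrFun hz.2 j, congrFun hy.2 j]
    · intro x hx
      obtain ⟨z, hz, rfl⟩ := mem_image.1 hx
      simp only [zk, mem_filter, mem_box, Nat.cast_mul] at hz hy₀
      refine ⟨mem_box.2 fun j => ⟨Int.ediv_nonneg (hz.1.1 j).1 (by omega),
        Int.ediv_lt_of_lt_mul (by omega) (by rw [mul_comm]; exact (hz.1.1 j).2)⟩, fun i => ?_⟩
      have hd : (a : ℤ) * b ∣ a * (M.mulVec (q z) i - M.mulVec (q y₀) i) := by
        have h3 := dvd_sub (hz.1.2 i) (hy₀.1.2 i)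
        convert! h3 using 1
        simp only [mulVec, dotProduct, mul_sub, mul_sum, ← sum_sub_distrib]
        refine sum_congr rfl fun j _ => ?_
        have e : z j % (a : ℤ) = y₀ j % a := (congrFun hz.2 j).trans (congrFun hy₀.2 j).symm
        rw [Int.emod_def, Int.emod_def] at e
        simp only [q]
        linear_combination -(M i j) * e
      exact (mul_dvd_mul_iff_left (by omega)).1 hd
  · rw [mul_comm]
    refine Nat.mul_le_mul_right _ (card_le_card fun r hr => ?_)
    obtain ⟨z, hz, rfl⟩ := mem_image.1 hr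
    simp only [zk, mem_filter] at hz ⊢
    refine ⟨emod_mem_box ha z, fun i => ?_⟩
    have h1 : (a : ℤ) ∣ M.mulVec z i :=
      (dvd_mul_right (a : ℤ) b).trans (by exact_mod_cast hz.2 i)
    simpa using dvd_add (mulVec_emod M (a : ℤ) z i) h1

theorem zk_pow_le (M : Matrix κ κ ℤ) {p : ℕ} (hp : 0 < p) (s : ℕ) :
    (zk M (p ^ s)).card ≤ (zk M p).card ^ s := by
  induction s with
  | zero =>
    rw [pow_zero, pow_zero]
    refine le_trans (card_filter_le _ _) (Eq.le ?_)
    simp [box]
  | succ s ih =>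
    rw [pow_succ', pow_succ']
    exact (zk_mul_le M hp (pow_pos hp s)).trans (Nat.mul_le_mul_left _ ih)

theorem zk_two_le (M W : Matrix κ κ ℤ) (hMW : ∀ i j, M i j = 2 * W i j - 1) {Q : ℕ} (hQ : 0 < Q) :
    (zk M (2 * Q)).card ≤ Q * 2 ^ Fintype.card κ * (zk W Q).card := by
  set τ : (κ → ℤ) → ℤ := fun z => ((∑ j, z j) / 2) % (Q : ℤ)
  set f : (κ → ℤ) → ℤ × (κ → ℤ) := fun z => (τ z, fun j => z j / (Q : ℤ))
  refine (card_le_mul_card_image (f := f) _ (zk W Q).card ?_).trans ?_
  · intro r _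
    refine le_trans (Eq.le (card_image_of_injOn (f := fun z j => z j % (Q : ℤ)) ?_).symm)
      (card_affine_le W hQ _ (fun _ => r.1) ?_)
    · intro z hz y hy hq
      simp only [mem_coe, mem_filter] at hz hy
      funext j
      rw [← Int.mul_ediv_add_emod (z j) Q, ← Int.mul_ediv_add_emod (y j) Q,
        show z j % (Q : ℤ) = y j % Q from congrFun hq j,
        show z j / (Q : ℤ) = y j / Q from congrFun (congrArg Prod.snd (hz.2.trans hy.2.symm)) j]
    · intro x hx
      obtain ⟨z, hz, rfl⟩ := mem_image.1 hx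
      simp only [zk, mem_filter, Nat.cast_mul, Nat.cast_ofNat] at hz
      refine ⟨emod_mem_box hQ z, fun i => ?_⟩
      have hsum : M.mulVec z i = 2 * W.mulVec z i - ∑ j, z j := by
        simp only [mulVec, dotProduct, hMW, mul_sum, ← sum_sub_distrib]
        exact sum_congr rfl fun j _ => by ring
      have hd : 2 * (Q : ℤ) ∣ 2 * W.mulVec z i - ∑ j, z j := hsum ▸ hz.1.2 i
      obtain ⟨c, hc⟩ := hd
      have hh : (∑ j, z j) / 2 = W.mulVec z i - Q * c := by
        rw [show ∑ j, z j = 2 * (W.mulVec z i - Q * c) by linarith]; simp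
      have hr : r.1 = ((∑ j, z j) / 2) % (Q : ℤ) := (congrArg Prod.fst hz.2).symm
      have h1 := mulVec_emod W (Q : ℤ) z i
      have h2 : (Q : ℤ) ∣ W.mulVec z i - r.1 := by
        rw [hr, hh, Int.emod_def]
        exact ⟨c + (W.mulVec z i - Q * c) / Q, by ring⟩
      simpa using dvd_add h1 h2
  · rw [mul_comm]
    refine Nat.mul_le_mul_right _ ?_
    refine le_trans (card_le_card (t := Ico (0 : ℤ) Q ×ˢ box 2) fun r hr => ?_) (Eq.le ?_)
    · obtain ⟨z, hz, rfl⟩ := mem_image.1 hr
      simp only [zk, mem_filter, mem_box] at hz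
      refine mem_product.2 ⟨mem_Ico.2 ⟨Int.emod_nonneg _ (by omega),
        Int.emod_lt_of_pos _ (by omega)⟩, mem_box.2 fun j => ⟨Int.ediv_nonneg (hz.1 j).1 (by omega),
        Int.ediv_lt_of_lt_mul (by omega) (by have := (hz.1 j).2; push_cast at this ⊢; linarith)⟩⟩
    · simp [box]

theorem zk_prime_le (M : Matrix κ κ ℤ) {p : ℕ} [hp : Fact p.Prime] :
    (zk M p).card ≤ p ^ (Fintype.card κ - (M.map (Int.cast : ℤ → ZMod p)).rank) := by
  set A := M.map (Int.cast : ℤ → ZMod p)
  set L := LinearMap.ker A.mulVecLin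
  have hd : Module.finrank (ZMod p) L = Fintype.card κ - A.rank := by
    have h := LinearMap.finrank_range_add_finrank_ker A.mulVecLin
    rw [Module.finrank_fintype_fun_eq_card] at h
    simp only [Matrix.rank, L]
    omega
  have hc : Fintype.card L = p ^ Module.finrank (ZMod p) L := by
    rw [Module.card_eq_pow_finrank (K := ZMod p), ZMod.card]
  rw [← hd, ← hc]
  rw [← card_univ (α := L)]
  refine le_trans ?_ (Eq.le (card_map ⟨Subtype.val, Subtype.val_injective⟩))
  refine card_le_card_of_injOn (fun z j => (z j : ZMod p)) (fun z hz => ?_) ?_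
  · simp only [zk, mem_coe, mem_filter] at hz
    rw [mem_coe, mem_map]
    refine ⟨⟨fun j => (z j : ZMod p), ?_⟩, mem_univ _, rfl⟩
    rw [LinearMap.mem_ker, Matrix.mulVecLin_apply]
    funext i
    have := (ZMod.intCast_zmod_eq_zero_iff_dvd _ p).2 (hz.2 i)
    simpa [mulVec, dotProduct, A] using this
  · intro z hz y hy h
    simp only [zk, mem_coe, mem_filter, mem_box] at hz hy
    funext j
    obtain ⟨k, hk⟩ := (ZMod.intCast_eq_intCast_iff_dvd_sub _ _ p).1 (congrFun h j)
    have h1 := hz.1 j; have h2 := hy.1 j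
    have : k = 0 := by
      have hlt : (p : ℤ) * k < p * 1 := by rw [← hk]; omega
      have hgt : (p : ℤ) * (-1) < p * k := by rw [← hk]; omega
      have := lt_of_mul_lt_mul_left hlt (by omega)
      have := lt_of_mul_lt_mul_left hgt (by omega)
      omega
    subst this
    omega

end Vale.Agent.P160R.Zeros
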