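import Vale.Agent.P160R.Zeros.Rows

/-!
# Kernel vectors modulo a prime

A kernel vector of least support on its support spans the kernel of those columns, so the small
integer kernel vector of spanning rows reduces to a multiple of it.
-/

namespace Vale.Agent.P160R.Zeros

open Finset Matrix
open scoped Classical

variable {ι : Type} [Fintype ι] [DecidableEq ι]

omit [Fintype ι] [DecidableEq ι] in
theorem symM_mul {A : Type} [Ring A] (ω : Sym2 ι → Bool) (i j : ι) (x : A) :
    symM A ω i j * x = sg (ω s(i, j)) x := by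
  simp only [symM, of_apply, sg]; split <;> simp

omit [DecidableEq ι] in
theorem mulVec_eq_sum {A : Type} [Ring A] (ω : Sym2 ι → Bool) (T : Finset ι) {z : ι → A}
    (hz : ∀ j, j ∉ T → z j = 0) (i : ι) :
    (symM A ω).mulVec z i = ∑ j : T, sg (rowPat ω T i j) (z j) := by
  change _ = ∑ j : T, (fun j => sg (ω s(i, j)) (z j)) j.1
  rw [sum_coe_sort T fun j => sg (ω s(i, j)) (z j)]
  simp only [mulVec, dotProduct, symM_mul]
  refine (sum_subset (subset_univ _) fun j _ hj => ?_).symm
  simp [hz j hj, sg]

/-- The principal block on `T`. -/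
def block (ω : Sym2 ι → Bool) (T : Finset ι) : Sym2 T → Bool := restrictSigns Subtype.val ω

theorem exists_span_rows {K : Type} [Field K] {V : Type} [AddCommGroup V] [Module K V]
    [Module.Finite K V] {α : Type} [Fintype α] [DecidableEq α] (v : α → V) (T : Finset α) :
    ∃ R : Finset α, R.card = Module.finrank K (Submodule.span K (Set.range v)) ∧
      Submodule.span K (v '' R) = Submodule.span K (Set.range v) ∧
      Module.finrank K (Submodule.span K (v '' T)) ≤ (R ∩ T).card := by
  obtain ⟨b, hbT, -, hTb, hb⟩ :=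
    exists_linearIndepOn_extension (linearIndepOn_empty K v) (Set.empty_subset (T : Set α))
  obtain ⟨b', -, hbb', hspan, hb'⟩ :=
    exists_linearIndepOn_extension hb (Set.subset_univ b)
  refine ⟨b'.toFinset, ?_, ?_, ?_⟩
  · have h := finrank_span_eq_card (R := K) hb'.linearIndependent
    rw [← Set.toFinset_card] at h
    rw [← h]
    have e : Submodule.span K (Set.range v) = Submodule.span K (v '' b') :=
      le_antisymm (Submodule.span_le.2 (by rw [← Set.image_univ]; exact hspan))
        (Submodule.span_mono (Set.image_subset_range _ _))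
    rw [e, Set.image_eq_range]
  · rw [Set.coe_toFinset]
    exact le_antisymm (Submodule.span_mono (Set.image_subset_range _ _))
      (Submodule.span_le.2 (by rw [← Set.image_univ]; exact hspan))
  · calc Module.finrank K (Submodule.span K (v '' T))
        ≤ Module.finrank K (Submodule.span K (v '' b)) :=
          Submodule.finrank_mono (Submodule.span_le.2 hTb)
      _ = b.toFinset.card := by
          rw [Set.image_eq_range, Set.toFinset_card]
          exact finrank_span_eq_card hb.linearIndependent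
      _ ≤ (b'.toFinset ∩ T).card := by
          refine card_le_card fun x hx => mem_inter.2 ?_
          rw [Set.mem_toFinset] at hx ⊢
          exact ⟨hbb' hx, mem_coe.1 (hbT hx)⟩

/-- A kernel vector modulo `p` gives a support `T`, rows `R` and an integer kernel vector of
these rows, nonzero at every place of `T`, killed modulo `p` by all rows. -/
theorem kernel_core {p : ℕ} [hp : Fact p.Prime] (ω : Sym2 ι → Bool) {z : ι → ZMod p} (hz : z ≠ 0)
    (hker : (symM (ZMod p) ω).mulVec z = 0) :
    ∃ T R : Finset ι, (∀ j ∈ T, z j ≠ 0) ∧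
      (∃ z' : ι → ZMod p, z' ≠ 0 ∧ (symM (ZMod p) ω).mulVec z' = 0 ∧ ∀ j, j ∈ T ↔ z' j ≠ 0) ∧
      R.card < T.card ∧ (R \ T).card + (symM (ZMod p) (block ω T)).rank < T.card ∧
      (∀ j, ¬ (p : ℤ) ∣ vec R T ω j) ∧ ∀ i, (p : ℤ) ∣ rowVal ω T (vec R T ω) i := by
  set S := (univ : Finset (ι → ZMod p)).filter fun y =>
    y ≠ 0 ∧ (symM (ZMod p) ω).mulVec y = 0 ∧ ∀ j, y j ≠ 0 → z j ≠ 0
  obtain ⟨z', hz', hmin⟩ := exists_min_image S
    (fun y => (univ.filter fun j => y j ≠ 0).card)
    ⟨z, by simp only [S, mem_filter, mem_univ, true_and]; exact ⟨hz, hker, fun _ h => h⟩⟩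
  simp only [S, mem_filter, mem_univ, true_and] at hz'
  obtain ⟨hz0, hk', hsub⟩ := hz'
  set T := univ.filter fun j => z' j ≠ 0 with hT
  have hmem : ∀ j, j ∈ T ↔ z' j ≠ 0 := fun j => by simp [hT]
  obtain ⟨t₀, ht₀⟩ : ∃ t, z' t ≠ 0 := Function.ne_iff.1 hz0
  have huniq : ∀ y : ι → ZMod p, (symM (ZMod p) ω).mulVec y = 0 → (∀ j, j ∉ T → y j = 0) →
      y = (y t₀ / z' t₀) • z' := by
    intro y hy hyT
    by_contra hne
    set u := y - (y t₀ / z' t₀) • z'
    have hu : u ∈ S := by
      simp only [S, mem_filter, mem_univ, true_and]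
      refine ⟨sub_ne_zero.2 hne, by simp [u, mulVec_sub, mulVec_smul, hy, hk'], fun j hj => ?_⟩
      refine hsub j fun h0 => hj ?_
      simp [u, h0, hyT j (by simp [hmem, h0])]
    have hlt : (univ.filter fun j => u j ≠ 0).card < T.card := by
      refine card_lt_card (Finset.ssubset_iff_subset_ne.2 ⟨fun j hj => ?_, fun he => ?_⟩)
      · simp only [mem_filter, mem_univ, true_and] at hj
        rw [hmem]; intro h0
        exact hj (by simp [u, h0, hyT j (by simp [hmem, h0])])
      · have : t₀ ∈ univ.filter fun j => u j ≠ 0 := he ▸ (hmem t₀).2 ht₀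
        simp [u, div_mul_cancel₀ _ ht₀] at this
    exact absurd (hmin u hu) (not_le.2 hlt)
  set v : ι → (T → ZMod p) := fun i j => symM (ZMod p) ω i j.1
  obtain ⟨R, hRcard, hRspan, hRT⟩ := exists_span_rows (K := ZMod p) v T
  set φ : (T → ZMod p) →ₗ[ZMod p] ZMod p :=
    ∑ j : T, z' j.1 • LinearMap.proj (R := ZMod p) (φ := fun _ => ZMod p) j
  have hφ : ∀ f, φ f = ∑ j : T, z' j.1 * f j := fun f => by simp [φ, LinearMap.sum_apply]
  have hlt : Module.finrank (ZMod p) (Submodule.span (ZMod p) (Set.range v)) < T.card := by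
    have hle : Submodule.span (ZMod p) (Set.range v) ≤ LinearMap.ker φ := by
      rw [Submodule.span_le]
      rintro _ ⟨i, rfl⟩
      rw [SetLike.mem_coe, LinearMap.mem_ker, hφ]
      have := congrFun hk' i
      rw [mulVec_eq_sum ω T (fun j hj => by simpa [hmem] using hj)] at this
      refine Eq.trans ?_ this
      refine sum_congr rfl fun j _ => ?_
      show z' j.1 * symM (ZMod p) ω i j.1 = _
      rw [mul_comm, symM_mul]; rfl
    refine lt_of_le_of_lt (Submodule.finrank_mono hle) ?_
    have hne : LinearMap.ker φ ≠ ⊤ := fun h => ht₀ <| by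
      have := LinearMap.congr_fun (LinearMap.ker_eq_top.1 h) (Pi.single ⟨t₀, (hmem t₀).2 ht₀⟩ 1)
      simpa [hφ, Pi.single_apply] using this
    simpa using Submodule.finrank_lt hne
  have hRlt : R.card < T.card := hRcard ▸ hlt
  have hrank : (symM (ZMod p) (block ω T)).rank =
      Module.finrank (ZMod p) (Submodule.span (ZMod p) (v '' T)) := by
    rw [rank_eq_finrank_span_row, block, symM_restrict, Set.image_eq_range]
    rfl
  refine ⟨T, R, fun j hj => hsub j ((hmem j).1 hj), ⟨z', hz0, hk', hmem⟩, hRlt, ?_, ?_⟩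
  · have := card_sdiff_add_card_inter R T
    omega
  obtain ⟨hw, -, hwp⟩ := kerVec_spec (fun r : R => rowPat ω T r) hRlt
  set w := vec R T ω
  set y : ι → ZMod p := fun j => if h : j ∈ T then (w ⟨j, h⟩ : ZMod p) else 0
  have hyT : ∀ j, j ∉ T → y j = 0 := fun j hj => dif_neg hj
  have hyv : ∀ j : T, y j.1 = (w j : ZMod p) := fun j => dif_pos j.2
  have hrow : ∀ i, (symM (ZMod p) ω).mulVec y i = (rowVal ω T w i : ZMod p) := fun i => by
    rw [mulVec_eq_sum ω T hyT, cast_rowVal]; simp only [hyv]
  set ψ : (T → ZMod p) →ₗ[ZMod p] ZMod p :=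
    ∑ j : T, (w j : ZMod p) • LinearMap.proj (R := ZMod p) (φ := fun _ => ZMod p) j
  have hψ : ∀ i, ψ (v i) = (rowVal ω T w i : ZMod p) := fun i => by
    rw [cast_rowVal]
    simp only [ψ, LinearMap.sum_apply, LinearMap.smul_apply, LinearMap.proj_apply, smul_eq_mul]
    refine sum_congr rfl fun j _ => ?_
    show (w j : ZMod p) * symM (ZMod p) ω i j.1 = _
    rw [mul_comm, symM_mul]; rfl
  have hall : ∀ i, (rowVal ω T w i : ZMod p) = 0 := by
    intro i
    have hle : Submodule.span (ZMod p) (v '' R) ≤ LinearMap.ker ψ := by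
      rw [Submodule.span_le]
      rintro _ ⟨r, hr, rfl⟩
      rw [SetLike.mem_coe, LinearMap.mem_ker, hψ]
      have := hw ⟨r, hr⟩
      exact (congrArg (Int.cast : ℤ → ZMod p) this).trans Int.cast_zero
    rw [← hψ]
    exact hle (hRspan ▸ Submodule.subset_span ⟨i, rfl⟩)
  refine ⟨fun j hj => ?_, fun i => (ZMod.intCast_zmod_eq_zero_iff_dvd _ _).1 (hall i)⟩
  have hyz := huniq y (funext fun i => (hrow i).trans (hall i)) hyT
  obtain ⟨k, hk⟩ := hwp p hp.out.two_le
  have hc : y t₀ / z' t₀ ≠ 0 := fun h => hk <| (ZMod.intCast_zmod_eq_zero_iff_dvd _ _).1 <| by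
    change (w k : ZMod p) = 0
    rw [← hyv, hyz, h, zero_smul, Pi.zero_apply]
  have : y j.1 = 0 := by rw [hyv]; exact (ZMod.intCast_zmod_eq_zero_iff_dvd _ _).2 hj
  rw [hyz, Pi.smul_apply, smul_eq_mul] at this
  exact mul_ne_zero hc ((hmem j.1).1 j.2) this

/-- A large prime does not lower the rank. -/
theorem rank_rat_le {κ : Type} [Fintype κ] [DecidableEq κ] (ω : Sym2 κ → Bool) {p : ℕ}
    [hp : Fact p.Prime] (hbig : (Fintype.card κ).factorial *
      (Fintype.card κ + 1) ^ Fintype.card κ < p) :
    (symM ℚ ω).rank ≤ (symM (ZMod p) ω).rank := by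
  obtain ⟨b, -, -, hb, hli⟩ :=
    exists_linearIndepOn_extension (linearIndepOn_empty ℚ (symM ℚ ω).row)
      (Set.empty_subset Set.univ)
  set r := b.toFinset
  have hr : (symM ℚ ω).rank = r.card := by
    rw [rank_eq_finrank_span_row, Set.toFinset_card,
      ← finrank_span_eq_card hli.linearIndependent]
    have e : Submodule.span ℚ (Set.range (symM ℚ ω).row) =
        Submodule.span ℚ ((symM ℚ ω).row '' b) :=
      le_antisymm (Submodule.span_le.2 (by rw [← Set.image_univ]; exact hb))
        (Submodule.span_mono (Set.image_subset_range _ _))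
    rw [e, Set.image_eq_range]
  set Sz : Matrix r κ ℤ := (symM ℤ ω).submatrix (fun i : r => i.1) id
  have hq : ∀ (A : Type) [CommRing A],
      Sz.map (Int.cast : ℤ → A) = (symM A ω).submatrix (fun i : r => i.1) id := by
    intro A _
    ext i j
    simp only [Sz, Matrix.map_apply, submatrix_apply, id_eq, symM, of_apply]
    split <;> simp
  set D := (Sz * Szᵀ).det
  have hD : D ≠ 0 := by
    intro h0
    have h1 : ((Sz.map (Int.cast : ℤ → ℚ)) * (Sz.map (Int.cast : ℤ → ℚ))ᵀ).det = 0 := by
      rw [← transpose_map]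
      change ((Sz.map (Int.castRingHom ℚ)) * Szᵀ.map (Int.castRingHom ℚ)).det = 0
      rw [← Matrix.map_mul]
      exact ((Int.castRingHom ℚ).map_det _).symm.trans (by rw [show (Sz * Szᵀ).det = 0 from h0]; simp)
    obtain ⟨x, hx, hx0⟩ := exists_mulVec_eq_zero_iff.2 h1
    have h2 : (Sz.map (Int.cast : ℤ → ℚ))ᵀ.mulVec x = 0 := by
      apply dotProduct_self_eq_zero.1
      rw [mulVec_transpose, dotProduct_comm, ← mulVec_transpose, dotProduct_mulVec,
        vecMul_transpose, mulVec_mulVec, hx0, zero_dotProduct]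
    have hind : LinearIndependent ℚ fun i : r => (symM ℚ ω).row i.1 :=
      hli.linearIndependent.comp (fun i : r => ⟨i.1, Set.mem_toFinset.1 i.2⟩)
        fun a c h => Subtype.ext (congrArg (fun s : b => s.1) h)
    refine hx (funext fun i => Fintype.linearIndependent_iff.1 hind x ?_ i)
    rw [hq] at h2
    funext j
    have := congrFun h2 j
    simpa [mulVec, dotProduct, Matrix.row, transpose_apply, mul_comm] using this
  have hbound : D.natAbs < p := by
    have := Matrix.det_le (A := Sz * Szᵀ) (abv := AbsoluteValue.abs)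
      (x := (Fintype.card κ : ℤ) + 1) fun i j => by
        rw [AbsoluteValue.abs_apply, mul_apply]
        refine (abs_sum_le_sum_abs _ _).trans ((sum_le_sum (g := fun _ => (1 : ℤ)) fun k _ => ?_).trans
          (by simp))
        simp only [Sz, transpose_apply, submatrix_apply, id_eq, symM, of_apply]
        split <;> split <;> simp
    rw [AbsoluteValue.abs_apply, nsmul_eq_mul, Fintype.card_coe, Int.abs_eq_natAbs] at this
    have h2 : D.natAbs ≤ r.card.factorial * (Fintype.card κ + 1) ^ r.card := by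
      exact_mod_cast this
    refine lt_of_le_of_lt (h2.trans ?_) hbig
    have := card_le_univ r
    gcongr
    omega
  have hDp : ((D : ℤ) : ZMod p) ≠ 0 := fun h => by
    have := Int.natAbs_dvd_natAbs.2 ((ZMod.intCast_zmod_eq_zero_iff_dvd _ _).1 h)
    have := Nat.le_of_dvd (Int.natAbs_pos.2 hD) (by simpa using this)
    omega
  have hrp : (Sz.map (Int.cast : ℤ → ZMod p) * (Sz.map (Int.cast : ℤ → ZMod p))ᵀ).rank = r.card := by
    rw [rank_of_det_ne_zero, Fintype.card_coe]
    rw [← transpose_map]
    change ((Sz.map (Int.castRingHom (ZMod p))) * Szᵀ.map (Int.castRingHom (ZMod p))).det ≠ 0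
    rw [← Matrix.map_mul]
    exact fun h => hDp (((Int.castRingHom (ZMod p)).map_det _).trans h)
  rw [hr, ← hrp, hq]
  refine (rank_mul_le_left _ _).trans ?_
  exact rank_submatrix_le (symM (ZMod p) ω) (fun i : r => i.1) id

end Vale.Agent.P160R.Zeros
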