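import Vale.Agent.P160R.Odlyzko
import Vale.Agent.P160R.Zeros.Fields

/-!
# No principal block has a large corank modulo any prime

Primes beyond the largest minor reduce to the rationals; for the prime two the zero-one matrix of
the signs replaces the sign matrix.
-/

namespace Vale.Agent.P160R.Zeros

open Finset Matrix
open scoped Classical

variable {ι : Type} [Fintype ι] [DecidableEq ι]

/-- The corank budget. -/
noncomputable def dMax (n : ℕ) : ℕ := ⌊(n : ℝ) / Real.log n⌋₊

/-- Past this bound no minor vanishes. -/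
def pBig (n : ℕ) : ℕ := n.factorial * (n + 1) ^ n

/-- The zero-one matrix of the signs modulo two. -/
def bitM (ω : Sym2 ι → Bool) : Matrix ι ι (ZMod 2) :=
  Matrix.of fun i j => if ω s(i, j) then 1 else 0

/-- Some principal block has a large corank. -/
def Defic (ω : Sym2 ι → Bool) : Prop :=
  ∃ T : Finset ι, (symM ℚ (block ω T)).rank + dMax (Fintype.card ι) ≤ T.card ∨
    (bitM (block ω T)).rank + dMax (Fintype.card ι) ≤ T.card ∨
    ∃ p ∈ (range (pBig (Fintype.card ι) + 1)).filter fun p => p.Prime ∧ p ≠ 2,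
      (symM (ZMod p) (block ω T)).rank + dMax (Fintype.card ι) ≤ T.card

theorem rank_of_not_defic {ω : Sym2 ι → Bool} (h : ¬ Defic ω) (T : Finset ι) {p : ℕ}
    (hp : p.Prime) (hp2 : p ≠ 2) :
    T.card < (symM (ZMod p) (block ω T)).rank + dMax (Fintype.card ι) := by
  by_contra hc
  rw [not_lt] at hc
  apply h
  rcases le_or_gt p (pBig (Fintype.card ι)) with hle | hgt
  · exact ⟨T, Or.inr (Or.inr ⟨p, by
      simp only [mem_filter, mem_range]; exact ⟨Nat.lt_succ_of_le hle, hp, hp2⟩, hc⟩)⟩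
  · have : Fact p.Prime := ⟨hp⟩
    have hbig : (Fintype.card T).factorial * (Fintype.card T + 1) ^ Fintype.card T < p := by
      refine lt_of_le_of_lt ?_ hgt
      rw [Fintype.card_coe]
      have h := card_le_univ T
      exact Nat.mul_le_mul (Nat.factorial_le h)
        ((Nat.pow_le_pow_left (by omega) _).trans (Nat.pow_le_pow_right (by omega) h))
    exact ⟨T, Or.inl (le_trans (Nat.add_le_add_right (rank_rat_le (block ω T) hbig) _) hc)⟩

omit [DecidableEq ι] in
theorem bit_rank_of_not_defic {ω : Sym2 ι → Bool} (h : ¬ Defic ω) (T : Finset ι) :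
    T.card < (bitM (block ω T)).rank + dMax (Fintype.card ι) := by
  by_contra hc
  rw [not_lt] at hc
  exact h ⟨T, Or.inr (Or.inl hc)⟩

theorem block_rank_le {K : Type} [Field K] {a b : K} (hab : a ≠ b) (T : Finset ι) (r : ℕ) :
    Pr (fun ω : Sym2 ι → Bool => (Matrix.of fun i j : T =>
        if block ω T s(i, j) then a else b).rank + r ≤ T.card) ≤
      2 ^ Fintype.card ι * (1 / 2 : ℝ) ^ r.choose 2 := by
  have h := corank_shift_le (ι := T) hab 0 isSymm_zero r
  simp only [zero_add, Fintype.card_coe] at h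
  have e := Pr_restrict (⟨Subtype.val, Subtype.val_injective⟩ : T ↪ ι)
    (fun ω' : Sym2 T → Bool => (Matrix.of fun i j => if ω' s(i, j) then a else b).rank + r ≤ T.card)
  refine le_trans (Eq.le (e.trans ?_)) (h.trans ?_)
  · rfl
  · gcongr
    calc ((T.card.choose r : ℕ) : ℝ) ≤ ((2 ^ T.card : ℕ) : ℝ) := by
          exact_mod_cast Nat.choose_le_two_pow _ _
      _ ≤ 2 ^ Fintype.card ι := by
          push_cast
          exact pow_le_pow_right₀ (by norm_num) (card_le_univ T)

theorem defic_prob :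
    Pr (Defic (ι := ι)) ≤ (4 : ℝ) ^ Fintype.card ι * ((pBig (Fintype.card ι) : ℝ) + 3) *
      (1 / 2 : ℝ) ^ (dMax (Fintype.card ι)).choose 2 := by
  set n := Fintype.card ι
  set d := dMax n
  set ε := 2 ^ n * (1 / 2 : ℝ) ^ d.choose 2
  have hsub : ∀ ω : Sym2 ι → Bool, Defic ω → ∃ T ∈ (univ : Finset (Finset ι)),
      ((symM ℚ (block ω T)).rank + d ≤ T.card ∨ (bitM (block ω T)).rank + d ≤ T.card ∨
        ∃ p ∈ (range (pBig n + 1)).filter fun p => p.Prime ∧ p ≠ 2,
          (symM (ZMod p) (block ω T)).rank + d ≤ T.card) :=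
    fun ω ⟨T, hT⟩ => ⟨T, mem_univ T, hT⟩
  refine ((Pr_mono hsub).trans (Pr_exists _ _)).trans ?_
  have hterm : ∀ T ∈ (univ : Finset (Finset ι)), Pr (fun ω : Sym2 ι → Bool =>
      ((symM ℚ (block ω T)).rank + d ≤ T.card ∨ (bitM (block ω T)).rank + d ≤ T.card ∨
        ∃ p ∈ (range (pBig n + 1)).filter fun p => p.Prime ∧ p ≠ 2,
          (symM (ZMod p) (block ω T)).rank + d ≤ T.card)) ≤ ((pBig n : ℝ) + 3) * ε := by
    intro T _
    have hQ : Pr (fun ω : Sym2 ι → Bool => (symM ℚ (block ω T)).rank + d ≤ T.card) ≤ ε :=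
      block_rank_le (by norm_num : (1 : ℚ) ≠ -1) T d
    have h2 : Pr (fun ω : Sym2 ι → Bool => (bitM (block ω T)).rank + d ≤ T.card) ≤ ε :=
      haveI : Fact (Nat.Prime 2) := ⟨Nat.prime_two⟩
      block_rank_le (one_ne_zero : (1 : ZMod 2) ≠ 0) T d
    refine ((Pr_or _ _).trans (add_le_add hQ ((Pr_or _ _).trans
      (add_le_add h2 ((Pr_exists _ _).trans (sum_le_sum (g := fun _ => ε) fun p hp => ?_)))))).trans ?_
    · simp only [mem_filter] at hp
      have : Fact p.Prime := ⟨hp.2.1⟩
      have : Fact (2 < p) := ⟨lt_of_le_of_ne hp.2.1.two_le (Ne.symm hp.2.2)⟩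
      exact block_rank_le (ZMod.neg_one_ne_one (n := p)).symm T d
    · rw [sum_const, nsmul_eq_mul]
      have hc : (((range (pBig n + 1)).filter fun p => p.Prime ∧ p ≠ 2).card : ℝ) ≤
          (pBig n : ℝ) + 1 := by
        exact_mod_cast (card_filter_le _ _).trans (Eq.le (card_range _))
      have hε : 0 ≤ ε := by positivity
      nlinarith [mul_le_mul_of_nonneg_right hc hε]
  refine (sum_le_sum hterm).trans (Eq.le ?_)
  rw [sum_const, card_univ, Fintype.card_finset, nsmul_eq_mul]
  simp only [ε]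
  push_cast
  rw [show (4 : ℝ) = 2 * 2 by norm_num, mul_pow]
  ring

end Vale.Agent.P160R.Zeros
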