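import Vale.Agent.P160R.Zeros.Units
import Vale.Agent.P160R.Zeros.Deficient
import Vale.Agent.P160R.Zeros.Count

/-!
# Many zeros with many units are rare

For a prime beyond `n ^ 2` the kernel vector is determined by few rows; for prime powers up to
`n ^ 2` it is one of few candidates cut out by the block on its support.
-/

namespace Vale.Agent.P160R.Zeros

open Finset Matrix
open scoped Classical

variable {ι : Type} [Fintype ι] [DecidableEq ι]

/-- The cost of one row. -/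
noncomputable def rowCost (n : ℕ) : ℝ := 2 / Real.sqrt (root4 n)

/-- Steps whose double has order at least the fourth root. -/
theorem zero_bound {N : ℕ} [NeZero N] {T : Finset ι} (v : T → ℤ) (hn : 1 ≤ root4 (Fintype.card ι))
    (hgood : uMin (Fintype.card ι) ≤ (univ.filter fun j : T =>
      ∀ k : ℕ, 0 < k → k < root4 (Fintype.card ι) → ¬ (N : ℤ) ∣ (k : ℤ) * (2 * v j)).card) :
    ((univ.filter fun y : T → Bool => (N : ℤ) ∣ ∑ j, sg (y j) (v j)).card : ℝ) ≤
      rowCost (Fintype.card ι) * 2 ^ T.card := by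
  have := ball_pow (fun j => (v j : ZMod N)) hn ?_ 0
  · rw [Fintype.card_coe] at this
    refine le_trans (Nat.cast_le.2 (card_le_card fun y hy => ?_)) this
    simp only [mem_filter, mem_univ, true_and] at hy ⊢
    have h0 := (ZMod.intCast_zmod_eq_zero_iff_dvd _ N).2 hy
    rw [Int.cast_sum] at h0
    refine Eq.trans (sum_congr rfl fun j _ => ?_) h0
    exact (map_sg (Int.castAddHom (ZMod N)) _ _).symm
  · refine hgood.trans (card_le_card fun j hj => ?_)
    simp only [mem_filter, mem_univ, true_and] at hj ⊢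
    intro k hk0 hkL h0
    refine hj k hk0 hkL ((ZMod.intCast_zmod_eq_zero_iff_dvd _ N).1 ?_)
    rw [← h0]; push_cast; rw [nsmul_eq_mul]; ring

/-- A large prime with many zeros. -/
def BadBig (Z : ℕ) (ω : Sym2 ι → Bool) : Prop :=
  ∃ T R : Finset ι, uMin (Fintype.card ι) ≤ T.card ∧ (R \ T).card ≤ dMax (Fintype.card ι) ∧
    Z ≤ (Tᶜ : Finset ι).card ∧ Core (Fintype.card ι ^ 2 + 1) R T (Tᶜ \ R) ω

theorem badBig_prob (Z : ℕ) (hn : 4 ≤ root4 (Fintype.card ι)) :
    Pr (BadBig (ι := ι) Z) ≤ (4 : ℝ) ^ Fintype.card ι * (5 * ((Fintype.card ι : ℝ) + 1) ^ 3) *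
      rowCost (Fintype.card ι) ^ (Z - dMax (Fintype.card ι) - 1) := by
  set n := Fintype.card ι
  set pairs := ((univ : Finset (Finset ι)) ×ˢ (univ : Finset (Finset ι))).filter fun TR =>
    uMin n ≤ TR.1.card ∧ (TR.2 \ TR.1).card ≤ dMax n ∧ Z ≤ (TR.1ᶜ : Finset ι).card
  have hsub : ∀ ω, BadBig Z ω → ∃ TR ∈ pairs, Core (n ^ 2 + 1) TR.2 TR.1 (TR.1ᶜ \ TR.2) ω :=
    fun ω ⟨T, R, h1, h2, h3, h4⟩ => ⟨(T, R),
      mem_filter.2 ⟨mem_product.2 ⟨mem_univ T, mem_univ R⟩, h1, h2, h3⟩, h4⟩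
  refine ((Pr_mono hsub).trans (Pr_exists _ _)).trans ?_
  have hq : rowCost n ≤ 1 := by
    rw [rowCost, div_le_one (Real.sqrt_pos.2 (by norm_cast; omega))]
    exact Real.le_sqrt_of_sq_le (by norm_num; exact_mod_cast hn)
  have hq0 : 0 ≤ rowCost n := by unfold rowCost; positivity
  have hterm : ∀ TR ∈ pairs, Pr (Core (n ^ 2 + 1) TR.2 TR.1 (TR.1ᶜ \ TR.2)) ≤
      5 * ((n : ℝ) + 1) ^ 3 * rowCost n ^ (Z - dMax n - 1) := by
    rintro ⟨T, R⟩ hTR
    simp only [pairs, mem_filter, mem_product, mem_univ, true_and] at hTR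
    obtain ⟨hu, hd, hZ⟩ := hTR
    refine (core_prob sdiff_disjoint (disjoint_of_subset_left sdiff_subset disjoint_compl_left)
      hq0 hq fun p hp hp0 v hv => ?_).trans ?_
    · have : NeZero p := ⟨hp.ne_zero⟩
      refine zero_bound v (show 1 ≤ root4 n by omega) (le_trans hu (Eq.le ?_))
      rw [filter_true_of_mem, card_univ, Fintype.card_coe]
      intro j _ k hk0 hkL h
      change k < root4 n at hkL
      have hLn : root4 n ≤ n := (Nat.sqrt_le_self _).trans (Nat.sqrt_le_self _)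
      have hn2 : n ≤ n ^ 2 := Nat.le_self_pow (by norm_num) n
      rcases Int.Prime.dvd_mul' hp h with h1 | h1
      · have := Nat.le_of_dvd hk0 (Int.natCast_dvd_natCast.1 h1); omega
      · rcases Int.Prime.dvd_mul' hp h1 with h2 | h2
        · have := Int.le_of_dvd (by norm_num) h2; omega
        · exact hv j h2
    · gcongr ?_ * ?_
      · have hm : (((Tᶜ \ R : Finset ι).card : ℕ) : ℝ) ≤ n := by exact_mod_cast card_le_univ _
        push_cast
        have hn : (0 : ℝ) ≤ n := Nat.cast_nonneg n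
        calc 1 + (((Tᶜ \ R : Finset ι).card : ℕ) : ℝ) * (3 * (n : ℝ) ^ 2 + n)
            ≤ 1 + (n : ℝ) * (3 * (n : ℝ) ^ 2 + n) := by gcongr
          _ ≤ 5 * ((n : ℝ) + 1) ^ 3 := by nlinarith [pow_nonneg hn 3, pow_nonneg hn 2]
      · refine pow_le_pow_of_le_one hq0 hq ?_
        have e : R \ T = R ∩ Tᶜ := by ext; simp
        have := card_sdiff_add_card_inter (Tᶜ : Finset ι) R
        rw [inter_comm] at this
        rw [e] at hd
        dsimp only at hd hZ ⊢
        omega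
  refine (sum_le_sum hterm).trans ?_
  rw [sum_const, nsmul_eq_mul, ← mul_assoc]
  gcongr
  have := (card_filter_le ((univ : Finset (Finset ι)) ×ˢ (univ : Finset (Finset ι)))
    fun TR => uMin n ≤ TR.1.card ∧ (TR.2 \ TR.1).card ≤ dMax n ∧ Z ≤ (TR.1ᶜ : Finset ι).card).trans
      (Eq.le (by rw [card_product, card_univ, Fintype.card_finset, ← mul_pow]))
  calc (pairs.card : ℝ) ≤ ((2 * 2) ^ n : ℕ) := by exact_mod_cast this
    _ = (4 : ℝ) ^ n := by norm_num

/-- The candidates on a support. -/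
noncomputable def cands (T : Finset ι) (N p : ℕ) (ω : Sym2 ι → Bool) : Finset (T → ℤ) :=
  (zk (symM ℤ (block ω T)) N).filter fun z =>
    uMin (Fintype.card ι) ≤ (univ.filter fun j => ¬ (p : ℤ) ∣ z j).card

/-- The bound on the candidates. -/
noncomputable def candMax (n : ℕ) : ℕ := n ^ 2 * 2 ^ n * (n ^ 2) ^ dMax n

/-- The moduli of prime powers up to `n ^ 2`. -/
def moduli (n : ℕ) : Finset (ℕ × ℕ) :=
  ((range (n ^ 2 + 1)) ×ˢ (range (n ^ 2 + 1))).filter fun ps =>
    ps.1.Prime ∧ 1 ≤ ps.2 ∧ ps.1 ^ ps.2 ≤ n ^ 2 ∧ n ^ 2 ≤ 32 * (ps.1 ^ ps.2) ^ 5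

/-- A prime power with many zeros. -/
def BadSmall (Z : ℕ) (ω : Sym2 ι → Bool) : Prop :=
  ∃ T : Finset ι, Z ≤ (Tᶜ : Finset ι).card ∧ ∃ ps ∈ moduli (Fintype.card ι),
    (cands T (ps.1 ^ ps.2) ps.1 ω).card ≤ candMax (Fintype.card ι) ∧
    ∃ z ∈ cands T (ps.1 ^ ps.2) ps.1 ω,
      ∀ i : (Tᶜ : Finset ι), ((ps.1 ^ ps.2 : ℕ) : ℤ) ∣ rowVal ω T z i

theorem order_large {n p s : ℕ} (hps : (p, s) ∈ moduli n) (hn : 11 ≤ root4 n) {v : ℤ}
    (hv : ¬ (p : ℤ) ∣ v) : ∀ k : ℕ, 0 < k → k < root4 n → ¬ ((p ^ s : ℕ) : ℤ) ∣ k * (2 * v) := by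
  intro k hk0 hkL h
  simp only [moduli, mem_filter, mem_product, mem_range] at hps
  obtain ⟨-, hp, hs, -, hlo⟩ := hps
  set L := root4 n
  have hL4 : L ^ 4 ≤ n := by
    calc L ^ 4 = (L ^ 2) ^ 2 := by ring
      _ ≤ Nat.sqrt n ^ 2 := Nat.pow_le_pow_left (Nat.sqrt_le' _) 2
      _ ≤ n := Nat.sqrt_le' n
  have hbig : 2 * L ≤ p ^ s := by
    by_contra hc
    have h1 : (p ^ s) ^ 5 ≤ (2 * L) ^ 5 := Nat.pow_le_pow_left (by omega) 5
    have h2 : (L ^ 4) ^ 2 ≤ n ^ 2 := Nat.pow_le_pow_left hL4 2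
    have h3 : L ^ 5 * L ^ 3 ≤ L ^ 5 * 1024 := by nlinarith
    have h4 := Nat.le_of_mul_le_mul_left h3 (by positivity)
    have h5 : 11 ^ 3 ≤ L ^ 3 := Nat.pow_le_pow_left hn 3
    omega
  rw [← mul_assoc] at h
  have hco : IsCoprime ((p ^ s : ℕ) : ℤ) v := by
    push_cast
    exact ((Nat.prime_iff_prime_int.1 hp).coprime_iff_not_dvd.2 hv).pow_left
  have h2 : ((p ^ s : ℕ) : ℤ) ∣ ((k * 2 : ℕ) : ℤ) := by
    push_cast at h ⊢
    exact (by simpa using hco : IsCoprime ((p : ℤ) ^ s) v).dvd_of_dvd_mul_right h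
  have h3 := Nat.le_of_dvd (by omega) (Int.natCast_dvd_natCast.1 h2)
  omega

theorem badSmall_prob (Z : ℕ) (hn : 11 ≤ root4 (Fintype.card ι)) :
    Pr (BadSmall (ι := ι) Z) ≤ (2 : ℝ) ^ Fintype.card ι *
      (((Fintype.card ι : ℝ) ^ 2 + 1) ^ 2 * (candMax (Fintype.card ι) *
        rowCost (Fintype.card ι) ^ Z)) := by
  set n := Fintype.card ι
  have hq0 : 0 ≤ rowCost n := by unfold rowCost; positivity
  have hq : rowCost n ≤ 1 := by
    rw [rowCost, div_le_one (Real.sqrt_pos.2 (by norm_cast; omega))]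
    exact Real.le_sqrt_of_sq_le (by norm_num; exact_mod_cast (by omega : 4 ≤ root4 n))
  have hterm : ∀ T : Finset ι, Z ≤ (Tᶜ : Finset ι).card → ∀ ps ∈ moduli n,
      Pr (fun ω : Sym2 ι → Bool => (cands T (ps.1 ^ ps.2) ps.1 ω).card ≤ candMax n ∧
        ∃ z ∈ cands T (ps.1 ^ ps.2) ps.1 ω, ∀ i : (Tᶜ : Finset ι),
          ((ps.1 ^ ps.2 : ℕ) : ℤ) ∣ rowVal ω T z i) ≤ candMax n * rowCost n ^ Z := by
    rintro T hZ ⟨p, s⟩ hps
    dsimp only
    set F : (Sym2 ι → Bool) → Finset (T → ℤ) := fun ω =>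
      if (cands T (p ^ s) p ω).card ≤ candMax n then cands T (p ^ s) p ω else ∅
    refine le_trans (Pr_mono (R := fun ω => ∃ z ∈ F ω, ∀ i : (Tᶜ : Finset ι),
      ((p ^ s : ℕ) : ℤ) ∣ ∑ j, sg (rowPat ω T i j) (z j)) fun ω ⟨hc, z, hz, hrows⟩ => ?_)
      (le_trans (Pr_rows_le (M := Tᶜ) (T := T) disjoint_compl_left F
        (fun _ z y => ((p ^ s : ℕ) : ℤ) ∣ ∑ j, sg (y j) (z j)) (fun ω ω' h => ⟨?_, rfl⟩)
        (K := candMax n) (fun ω => ?_) hq0 fun ω z hz => ?_) ?_)
    · exact ⟨z, by simp only [F, if_pos hc]; exact hz, hrows⟩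
    · have hb : block ω T = block ω' T := by
        funext e
        induction e using Sym2.ind with
        | _ a b =>
          refine h _ fun i hi k hk he => ?_
          rcases Sym2.eq_iff.1 he with ⟨h1, -⟩ | ⟨-, h2⟩
          · exact mem_compl.1 hi (h1 ▸ a.2)
          · exact mem_compl.1 hi (h2 ▸ b.2)
      have hc : cands T (p ^ s) p ω = cands T (p ^ s) p ω' := by unfold cands; rw [hb]
      simp only [F]; rw [hc]
    · simp only [F]; split
      · assumption
      · simp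
    · have hpN : NeZero (p ^ s) := ⟨by
        simp only [moduli, mem_filter] at hps
        exact pow_ne_zero _ hps.2.1.ne_zero⟩
      refine le_trans (Nat.cast_le.2 (card_le_card fun y hy => ?_))
        (zero_bound (N := p ^ s) z (show 1 ≤ root4 n by omega) ?_)
      · exact (@mem_filter _ _ (_) _ _).2 ((@mem_filter _ _ (_) _ _).1 hy)
      have hz' : z ∈ cands T (p ^ s) p ω := by
        simp only [F] at hz; split at hz
        · exact hz
        · simp at hz
      refine (mem_filter.1 hz').2.trans (card_le_card fun j hj => ?_)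
      simp only [mem_filter, mem_univ, true_and] at hj ⊢
      exact order_large hps hn hj
    · exact mul_le_mul_of_nonneg_left (pow_le_pow_of_le_one hq0 hq hZ) (Nat.cast_nonneg _)
  have hsub : ∀ ω, BadSmall Z ω → ∃ T ∈ (univ : Finset (Finset ι)).filter
      (fun T => Z ≤ (Tᶜ : Finset ι).card), ∃ ps ∈ moduli n,
        (cands T (ps.1 ^ ps.2) ps.1 ω).card ≤ candMax n ∧
        ∃ z ∈ cands T (ps.1 ^ ps.2) ps.1 ω, ∀ i : (Tᶜ : Finset ι),
          ((ps.1 ^ ps.2 : ℕ) : ℤ) ∣ rowVal ω T z i :=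
    fun ω ⟨T, h1, h2⟩ => ⟨T, mem_filter.2 ⟨mem_univ T, h1⟩, h2⟩
  refine ((Pr_mono hsub).trans (Pr_exists _ _)).trans ?_
  refine (sum_le_sum fun T hT => (Pr_exists _ _).trans
    (sum_le_sum (hterm T (mem_filter.1 hT).2))).trans ?_
  rw [sum_const, sum_const, nsmul_eq_mul, nsmul_eq_mul]
  have hq' : 0 ≤ (candMax n : ℝ) * rowCost n ^ Z := by positivity
  have h1 : ((((univ : Finset (Finset ι)).filter
      fun T => Z ≤ (Tᶜ : Finset ι).card).card : ℕ) : ℝ) ≤ 2 ^ n := by
    have := (card_filter_le (univ : Finset (Finset ι))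
      fun T => Z ≤ (Tᶜ : Finset ι).card).trans (Eq.le (by rw [card_univ, Fintype.card_finset]))
    exact_mod_cast this
  have h2 : (((moduli n).card : ℕ) : ℝ) ≤ ((n : ℝ) ^ 2 + 1) ^ 2 := by
    have := (card_filter_le ((range (n ^ 2 + 1)) ×ˢ (range (n ^ 2 + 1))) fun ps =>
      ps.1.Prime ∧ 1 ≤ ps.2 ∧ ps.1 ^ ps.2 ≤ n ^ 2 ∧ n ^ 2 ≤ 32 * (ps.1 ^ ps.2) ^ 5).trans
        (Eq.le (by rw [card_product, card_range, ← sq]))
    exact_mod_cast this
  gcongr

/-- Without a large corank the candidates are few. -/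
theorem cands_le {ω : Sym2 ι → Bool} (h : ¬ Defic ω) (T : Finset ι) {p s : ℕ}
    (hps : (p, s) ∈ moduli (Fintype.card ι)) :
    (cands T (p ^ s) p ω).card ≤ candMax (Fintype.card ι) := by
  set n := Fintype.card ι
  simp only [moduli, mem_filter, mem_product, mem_range] at hps
  obtain ⟨-, hp, hs, hN, -⟩ := hps
  have : Fact p.Prime := ⟨hp⟩
  have hn : 1 ≤ n ^ 2 := le_trans (Nat.one_le_pow _ _ hp.pos) hN
  refine (card_filter_le _ _).trans ?_
  set t := Fintype.card T
  have ht : t = T.card := Fintype.card_coe T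
  rcases eq_or_ne p 2 with rfl | hp2
  · obtain ⟨r, rfl⟩ : ∃ r, s = r + 1 := ⟨s - 1, by omega⟩
    set W : Matrix T T ℤ := Matrix.of fun i j => if block ω T s(i, j) then 1 else 0
    have hMW : ∀ i j, symM ℤ (block ω T) i j = 2 * W i j - 1 := fun i j => by
      simp only [W, symM, of_apply]; split <;> norm_num
    have hW : W.map (Int.cast : ℤ → ZMod 2) = bitM (block ω T) := by
      ext i j; simp only [W, bitM, Matrix.map_apply, of_apply]; split <;> simp
    have hrank := bit_rank_of_not_defic h T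
    rw [pow_succ']
    refine (zk_two_le _ W hMW (by positivity)).trans ?_
    have hk : (zk W (2 ^ r)).card ≤ (2 ^ r) ^ dMax n := by
      refine (zk_pow_le W two_pos r).trans ?_
      rw [← pow_mul, mul_comm, pow_mul]
      refine Nat.pow_le_pow_left ((zk_prime_le (p := 2) W).trans ?_) r
      refine Nat.pow_le_pow_right two_pos ?_
      change T.card < _ + dMax n at hrank
      rw [hW, Fintype.card_coe]; omega
    have hr : 2 ^ r ≤ n ^ 2 := le_trans (Nat.pow_le_pow_right two_pos (Nat.le_succ r)) hN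
    exact Nat.mul_le_mul (Nat.mul_le_mul hr (Nat.pow_le_pow_right two_pos (by
      rw [Fintype.card_coe]; exact card_le_univ T))) (hk.trans (Nat.pow_le_pow_left hr _))
  · have hrank := rank_of_not_defic h T hp hp2
    have hmap : (symM ℤ (block ω T)).map (Int.cast : ℤ → ZMod p) = symM (ZMod p) (block ω T) := by
      ext i j; simp only [symM, Matrix.map_apply, of_apply]; split <;> simp
    refine (zk_pow_le _ hp.pos s).trans ?_
    calc (zk (symM ℤ (block ω T)) p).card ^ s ≤ (p ^ dMax n) ^ s := by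
          refine Nat.pow_le_pow_left ((zk_prime_le (p := p) _).trans ?_) s
          refine Nat.pow_le_pow_right hp.pos ?_
          change T.card < _ + dMax n at hrank
          rw [hmap, Fintype.card_coe]; omega
      _ = (p ^ s) ^ dMax n := by rw [← pow_mul, mul_comm, pow_mul]
      _ ≤ 1 * (n ^ 2) ^ dMax n := by rw [one_mul]; exact Nat.pow_le_pow_left hN _
      _ ≤ candMax n := Nat.mul_le_mul_right _ (Nat.one_le_iff_ne_zero.2 (by
          exact Nat.mul_ne_zero (by omega) (by positivity)))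

end Vale.Agent.P160R.Zeros
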