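import Vale.Agent.P160R.Basic
import Vale.Agent.P160R.Zeros.Ball

/-!
# Rows outside a support are independent

`rowPat ω T i` is the pattern of row `i` on the columns in `T`.  For disjoint `M` and `T` the
patterns of the rows in `M` are independent given all other signs.  `core_prob` applies this to a
prime dividing all the row values of one fixed small integer kernel vector of the rows in `R`.
-/

namespace Vale.Agent.P160R.Zeros

open Finset Matrix
open scoped Classical

variable {ι : Type} [Fintype ι] [DecidableEq ι]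

/-- The signs of row `i` on `T`. -/
def rowPat (ω : Sym2 ι → Bool) (T : Finset ι) (i : ι) : T → Bool := fun j => ω s(i, j.1)

/-- `M` rows and `T` columns: the pair is free. -/
def Avoid (M T : Finset ι) (e : Sym2 ι) : Prop := ∀ i ∈ M, ∀ j ∈ T, e ≠ s(i, j)

theorem Pr_rows_le {M T : Finset ι} (hd : Disjoint M T) {β : Type*}
    (F : (Sym2 ι → Bool) → Finset β) (S : (Sym2 ι → Bool) → β → (T → Bool) → Prop)
    (hinv : ∀ ω ω', (∀ e, Avoid M T e → ω e = ω' e) → F ω = F ω' ∧ S ω = S ω')
    {K : ℕ} (hK : ∀ ω, (F ω).card ≤ K) {q : ℝ} (hq : 0 ≤ q)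
    (hS : ∀ ω, ∀ b ∈ F ω, ((univ.filter (S ω b)).card : ℝ) ≤ q * 2 ^ T.card) :
    Pr (fun ω => ∃ b ∈ F ω, ∀ i : M, S ω b (rowPat ω T i)) ≤ K * q ^ M.card := by
  set Gs : (M → T → Bool) → Sym2 ι → Bool := fun g e => decide (∃ (i : M) (j : T),
    e = s(i.1, j.1) ∧ g i j = true)
  set Φ : (M → T → Bool) → (Sym2 ι → Bool) → Sym2 ι → Bool := fun g ω e => xor (ω e) (Gs g e)
  have hΦ : ∀ g ω, Φ g (Φ g ω) = ω := fun g ω => funext fun e => by simp [Φ]
  have hrow : ∀ g ω (i : M), rowPat (Φ g ω) T i = fun j => xor (rowPat ω T i j) (g i j) := by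
    intro g ω i
    funext j
    have : Gs g s(i.1, j.1) = g i j := by
      cases hg : g i j
      · simp only [Gs, decide_eq_false_iff_not, not_exists, not_and, Bool.not_eq_true]
        intro i' j' he
        rcases Sym2.eq_iff.1 he with ⟨h1, h2⟩ | ⟨h1, -⟩
        · rw [← Subtype.ext h1, ← Subtype.ext h2, hg]
        · exact absurd (h1 ▸ i.2) (disjoint_right.1 hd j'.2)
      · simp only [Gs, decide_eq_true_eq]
        exact ⟨i, j, rfl, hg⟩
    simp [rowPat, Φ, this]
  have hfix : ∀ g ω, F (Φ g ω) = F ω ∧ S (Φ g ω) = S ω := fun g ω => hinv _ _ fun e he => by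
    have : Gs g e = false := decide_eq_false fun ⟨i, j, h, _⟩ => he i.1 i.2 j.1 j.2 h
    simp [Φ, this]
  set P : (Sym2 ι → Bool) → Prop := fun ω => ∃ b ∈ F ω, ∀ i : M, S ω b (rowPat ω T i)
  have hfib : ∀ ω, ((univ.filter fun g => P (Φ g ω)).card : ℝ) ≤
      K * q ^ M.card * (2 ^ T.card) ^ M.card := by
    intro ω
    have hb : ∀ b ∈ F ω, ((univ.filter fun g : M → T → Bool =>
        ∀ i : M, S ω b fun j => xor (rowPat ω T i j) (g i j)).card : ℝ) ≤
          (q * 2 ^ T.card) ^ M.card := by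
      intro b hb
      have e : (univ.filter fun g : M → T → Bool =>
          ∀ i : M, S ω b fun j => xor (rowPat ω T i j) (g i j)) =
          Fintype.piFinset fun i : M =>
            univ.filter fun y : T → Bool => S ω b fun j => xor (rowPat ω T i j) (y j) := by
        ext g; simp
      rw [e, Fintype.card_piFinset, Nat.cast_prod]
      refine (prod_le_prod (fun i _ => Nat.cast_nonneg _) (fun i _ => ?_)).trans
        (Eq.le (by rw [prod_const, card_univ, Fintype.card_coe]))
      refine le_trans (Eq.le ?_) (hS ω b hb)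
      congr 1
      refine card_bij' (fun y _ j => xor (rowPat ω T i j) (y j))
        (fun y _ j => xor (rowPat ω T i j) (y j)) ?_ ?_ ?_ ?_ <;>
        intro y hy <;> simp at hy ⊢ <;> exact hy
    calc ((univ.filter fun g => P (Φ g ω)).card : ℝ)
        ≤ ∑ b ∈ F ω, ((univ.filter fun g : M → T → Bool =>
            ∀ i : M, S ω b fun j => xor (rowPat ω T i j) (g i j)).card : ℝ) := by
          rw [← Nat.cast_sum]
          refine Nat.cast_le.2 (le_trans (card_le_card ?_) card_biUnion_le)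
          intro g hg
          simp only [mem_filter, mem_univ, true_and, P, (hfix g ω).1, (hfix g ω).2, hrow] at hg
          simpa using hg
      _ ≤ ∑ _b ∈ F ω, (q * 2 ^ T.card) ^ M.card := sum_le_sum hb
      _ ≤ K * (q * 2 ^ T.card) ^ M.card := by
          rw [sum_const, nsmul_eq_mul]
          exact mul_le_mul_of_nonneg_right (by exact_mod_cast hK ω) (by positivity)
      _ = _ := by ring
  have hswap : ∀ g, (univ.filter fun ω => P (Φ g ω)).card = (univ.filter P).card := fun g =>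
    card_bij' (fun ω _ => Φ g ω) (fun ω _ => Φ g ω)
      (by intro ω hω; simpa using hω)
      (by intro ω hω; simpa [hΦ] using hω)
      (by intro ω _; exact hΦ g ω) (by intro ω _; exact hΦ g ω)
  have htot : ((univ.filter P).card : ℝ) * (2 ^ T.card) ^ M.card ≤
      2 ^ Fintype.card (Sym2 ι) * (K * q ^ M.card * (2 ^ T.card) ^ M.card) := by
    calc _ = ∑ g : M → T → Bool, ((univ.filter fun ω => P (Φ g ω)).card : ℝ) := by
          simp [hswap, mul_comm]
      _ = ∑ ω, ((univ.filter fun g => P (Φ g ω)).card : ℝ) := by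
          simp only [card_filter, Nat.cast_sum]
          exact sum_comm
      _ ≤ ∑ _ω : Sym2 ι → Bool, (K * q ^ M.card * (2 ^ T.card) ^ M.card : ℝ) :=
          sum_le_sum fun ω _ => hfib ω
      _ = _ := by simp
  rw [Pr_eq, div_le_iff₀ (by positivity)]
  have := le_of_mul_le_mul_right (htot.trans (Eq.le (mul_assoc _ _ _).symm)) (by positivity)
  convert! this.trans (Eq.le (mul_comm _ _)) using 3
  ext; simp

/-- The value of row `i` on a vector supported on `T`. -/
def rowVal (ω : Sym2 ι → Bool) (T : Finset ι) (v : T → ℤ) (i : ι) : ℤ :=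
  ∑ j : T, sg (rowPat ω T i j) (v j)

omit [Fintype ι] [DecidableEq ι] in
theorem natAbs_rowVal_le (ω : Sym2 ι → Bool) (T : Finset ι) (v : T → ℤ) (i : ι) :
    (rowVal ω T v i).natAbs ≤ ∑ j, (v j).natAbs := by
  refine (Int.natAbs_sum_le _ _).trans (Eq.le (sum_congr rfl fun j _ => ?_))
  unfold sg; split <;> simp

omit [Fintype ι] [DecidableEq ι] in
theorem cast_rowVal {A : Type*} [Ring A] (ω : Sym2 ι → Bool) (T : Finset ι) (v : T → ℤ) (i : ι) :
    (rowVal ω T v i : A) = ∑ j : T, sg (rowPat ω T i j) (v j : A) := by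
  simp only [rowVal, Int.cast_sum]
  refine sum_congr rfl fun j _ => ?_
  exact map_sg (Int.castAddHom A) _ _

/-- The vector is killed by the rows with these signs. -/
def KerRel {R T : Finset ι} (b : R → T → Bool) (v : T → ℤ) : Prop :=
  v ≠ 0 ∧ ∀ r, ∑ j, sg (b r j) (v j) = 0

omit [Fintype ι] in
/-- A small integer vector killed by fewer rows than columns. -/
theorem exists_small_ker {R T : Finset ι} (b : R → T → Bool) (h : R.card < T.card) :
    ∃ v, KerRel b v ∧ ∑ j, (v j).natAbs ≤ T.card * (2 * T.card + 2) ^ T.card := by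
  set t := T.card
  set B : ℕ := (2 * t + 2) ^ t
  set box : Finset (T → ℤ) := Fintype.piFinset fun _ => Icc (0 : ℤ) B
  set img : (T → ℤ) → R → ℤ := fun x r => ∑ j, sg (b r j) (x j)
  have hmaps : Set.MapsTo img box
      (Fintype.piFinset fun _ : R => Icc (-(t * B : ℤ)) (t * B)) := by
    intro x hx
    simp only [box, mem_coe, Fintype.mem_piFinset, mem_Icc] at hx ⊢
    intro r
    rw [← abs_le]
    refine (abs_sum_le_sum_abs _ _).trans ((sum_le_sum (g := fun _ => (B : ℤ)) fun j _ => ?_).trans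
      (Eq.le (by simp [t])))
    have : |sg (b r j) (x j)| = |x j| := by unfold sg; split <;> simp
    rw [this, abs_of_nonneg (hx j).1]
    exact (hx j).2
  have hlt : (Fintype.piFinset fun _ : R => Icc (-(t * B : ℤ)) (t * B)).card < box.card := by
    simp only [box, Fintype.card_piFinset, prod_const, card_univ, Fintype.card_coe, Int.card_Icc]
    have e1 : ((B : ℤ) + 1 - 0).toNat = B + 1 := by omega
    have e2 : ((t * B : ℤ) + 1 - -(t * B : ℤ)).toNat = 2 * t * B + 1 := by
      rw [show (t * B : ℤ) + 1 - -(t * B : ℤ) = ((2 * t * B + 1 : ℕ) : ℤ) by push_cast; ring]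
      exact Int.toNat_natCast _
    rw [e1, e2]
    calc (2 * t * B + 1) ^ R.card ≤ ((2 * t + 2) * (B + 1)) ^ R.card :=
          Nat.pow_le_pow_left (by nlinarith) _
      _ = (2 * t + 2) ^ R.card * (B + 1) ^ R.card := mul_pow _ _ _
      _ < (B + 1) * (B + 1) ^ R.card := by
          refine Nat.mul_lt_mul_of_pos_right (Nat.lt_succ_of_le ?_) (by positivity)
          exact Nat.pow_le_pow_right (by omega) h.le
      _ ≤ (B + 1) ^ T.card := by
          rw [← pow_succ']
          exact Nat.pow_le_pow_right (by omega) h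
  obtain ⟨x, hx, y, hy, hne, he⟩ := exists_ne_map_eq_of_card_lt_of_maps_to hlt hmaps
  simp only [box, Fintype.mem_piFinset, mem_Icc] at hx hy
  refine ⟨x - y, ⟨sub_ne_zero.2 hne, fun r => ?_⟩, ?_⟩
  · have := congrFun he r
    simp only [img] at this
    rw [← sub_eq_zero.2 this, ← sum_sub_distrib]
    refine sum_congr rfl fun j _ => ?_
    simp only [Pi.sub_apply, sg]; split <;> ring
  · refine (sum_le_sum (g := fun _ => B) fun j _ => ?_).trans (Eq.le (by simp [t, B]))
    have h1 := hx j; have h2 := hy j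
    simp only [Pi.sub_apply]
    omega

/-- A kernel vector of least size, or zero. -/
noncomputable def kerVec {R T : Finset ι} (b : R → T → Bool) : T → ℤ :=
  if h : ∃ v, KerRel b v then Function.argminOn (fun v => ∑ j, (v j).natAbs) {v | KerRel b v} h
  else 0

omit [Fintype ι] in
theorem kerVec_spec {R T : Finset ι} (b : R → T → Bool) (h : R.card < T.card) :
    (∀ r, ∑ j, sg (b r j) (kerVec b j) = 0) ∧
      ∑ j, (kerVec b j).natAbs ≤ T.card * (2 * T.card + 2) ^ T.card ∧
      ∀ p : ℕ, 2 ≤ p → ∃ j, ¬ (p : ℤ) ∣ kerVec b j := by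
  obtain ⟨v₀, hv₀, hv₀B⟩ := exists_small_ker b h
  have hne : ∃ v, KerRel b v := ⟨v₀, hv₀⟩
  rw [kerVec, dif_pos hne]
  set size : (T → ℤ) → ℕ := fun v => ∑ j, (v j).natAbs
  set w := Function.argminOn size {v | KerRel b v} hne
  have hw : KerRel b w := Function.argminOn_mem size _ hne
  refine ⟨hw.2, le_trans (Function.argminOn_le size _ hv₀) hv₀B, fun p hp => ?_⟩
  by_contra hc
  push Not at hc
  choose u hu using hc
  have hu' : KerRel b u := by
    refine ⟨fun h0 => hw.1 (funext fun j => by rw [hu j, h0]; simp), fun r => ?_⟩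
    have h2 : (p : ℤ) * ∑ j, sg (b r j) (u j) = 0 := by
      rw [mul_sum, ← hw.2 r]
      refine sum_congr rfl fun j _ => ?_
      rw [hu j]; simp only [sg]; split <;> ring
    exact (mul_eq_zero.1 h2).resolve_left (by exact_mod_cast (by omega : p ≠ 0))
  have hle : size w ≤ size u := Function.argminOn_le size _ hu'
  have heq : size w = p * size u := by
    simp only [size, mul_sum, hu, Int.natAbs_mul, Int.natAbs_natCast]
  have hpos : 0 < size u := by
    by_contra h0
    refine hu'.1 (funext fun j => ?_)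
    have : (u j).natAbs = 0 := by
      have : ∀ j ∈ (univ : Finset T), (u j).natAbs = 0 := by
        simpa [size, sum_eq_zero_iff] using h0
      exact this j (mem_univ j)
    simpa using this
  nlinarith

/-- The kernel vector of the rows in `R` on the columns in `T`. -/
noncomputable def vec (R T : Finset ι) (ω : Sym2 ι → Bool) : T → ℤ :=
  kerVec fun r : R => rowPat ω T r

/-- A large prime divides all the values of `vec R T` on `M`, but none of its entries. -/
def Core (P₀ : ℕ) (R T M : Finset ι) (ω : Sym2 ι → Bool) : Prop :=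
  R.card < T.card ∧ ∃ p : ℕ, p.Prime ∧ P₀ ≤ p ∧ (∀ j, ¬ (p : ℤ) ∣ vec R T ω j) ∧
    ∀ i ∈ M, (p : ℤ) ∣ rowVal ω T (vec R T ω) i

omit [Fintype ι] [DecidableEq ι] in
theorem vec_congr {R T M : Finset ι} (hR : Disjoint M R) (hT : Disjoint M T)
    {ω ω' : Sym2 ι → Bool} (h : ∀ e, Avoid M T e → ω e = ω' e) : vec R T ω = vec R T ω' := by
  unfold vec
  refine congrArg kerVec (funext fun r => funext fun j => h _ fun i hi k _ he => ?_)
  rcases Sym2.eq_iff.1 he with ⟨h1, -⟩ | ⟨-, h2⟩
  · exact disjoint_right.1 hR r.2 (h1 ▸ hi)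
  · exact disjoint_right.1 hT j.2 (h2 ▸ hi)

theorem card_primeFactors_le {D B : ℕ} (h : D ≤ 2 ^ B) : D.primeFactors.card ≤ B := by
  rcases eq_or_ne D 0 with rfl | hD
  · simp
  have h1 : 2 ^ D.primeFactors.card ≤ ∏ p ∈ D.primeFactors, p :=
    pow_card_le_prod _ _ _ fun p hp => (Nat.prime_of_mem_primeFactors hp).two_le
  exact (Nat.pow_le_pow_iff_right (by norm_num)).1
    ((h1.trans (Nat.le_of_dvd (Nat.pos_of_ne_zero hD) (Nat.prod_primeFactors_dvd D))).trans h)

theorem size_le {t n : ℕ} (h : t ≤ n) : t * (2 * t + 2) ^ t ≤ 2 ^ (3 * n ^ 2 + n) := by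
  rcases Nat.eq_zero_or_pos n with rfl | hn
  · simp [Nat.le_zero.1 h]
  calc t * (2 * t + 2) ^ t ≤ 2 ^ n * (2 ^ (3 * n)) ^ n := by
        refine Nat.mul_le_mul (h.trans (Nat.lt_two_pow_self (n := n)).le) ?_
        refine le_trans (Nat.pow_le_pow_left ?_ t) (Nat.pow_le_pow_right (Nat.one_le_two_pow) h)
        calc 2 * t + 2 ≤ 4 * 2 ^ n := by have := (Nat.lt_two_pow_self (n := n)); omega
          _ ≤ 2 ^ (3 * n) := by
            rw [show (4 : ℕ) = 2 ^ 2 by norm_num, ← pow_add]
            exact Nat.pow_le_pow_right (by norm_num) (by omega)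
    _ = 2 ^ (3 * n ^ 2 + n) := by rw [← pow_mul, ← pow_add]; ring_nf

/-- A prime dividing all row values of the kernel vector is rare. -/
theorem core_prob {P₀ : ℕ} {R T M : Finset ι} (hR : Disjoint M R) (hT : Disjoint M T)
    {q : ℝ} (hq0 : 0 ≤ q) (hq1 : q ≤ 1)
    (hq : ∀ p : ℕ, p.Prime → P₀ ≤ p → ∀ v : T → ℤ, (∀ j, ¬ (p : ℤ) ∣ v j) →
      ((univ.filter fun y : T → Bool => (p : ℤ) ∣ ∑ j, sg (y j) (v j)).card : ℝ) ≤
        q * 2 ^ T.card) :
    Pr (Core P₀ R T M) ≤
      (1 + M.card * (3 * Fintype.card ι ^ 2 + Fintype.card ι : ℕ)) * q ^ (M.card - 1) := by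
  set B := 3 * Fintype.card ι ^ 2 + Fintype.card ι with hB
  clear_value B
  rcases Nat.lt_or_ge R.card T.card with hcard | hcard
  swap
  · have : Pr (Core P₀ R T M) = 0 := by
      rw [Pr_eq, filter_eq_empty_iff.2 fun ω _ h => absurd h.1 (not_lt.2 hcard)]; simp
    rw [this]; positivity
  set A : (Sym2 ι → Bool) → Prop := fun ω => ∃ _b ∈ (if ∀ j, vec R T ω j ≠ 0 then {()} else
    (∅ : Finset Unit)), ∀ i : M, ∑ j, sg (rowPat ω T i j) (vec R T ω j) = 0
  set E : ι → (Sym2 ι → Bool) → Prop := fun i₀ ω =>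
    ∃ p ∈ (rowVal ω T (vec R T ω) i₀).natAbs.primeFactors.filter
      (fun p => P₀ ≤ p ∧ ∀ j, ¬ (p : ℤ) ∣ vec R T ω j),
      ∀ i : (M.erase i₀ : Finset ι), (p : ℤ) ∣ ∑ j, sg (rowPat ω T i j) (vec R T ω j)
  have hsub : ∀ ω, Core P₀ R T M ω → A ω ∨ ∃ i₀ ∈ M, E i₀ ω := by
    rintro ω ⟨-, p, hp, hp0, hv, hM⟩
    by_cases h : ∀ i ∈ M, rowVal ω T (vec R T ω) i = 0
    · refine Or.inl ⟨(), ?_, fun i => h i.1 i.2⟩
      rw [if_pos fun j hj => hv j (by rw [hj]; exact dvd_zero _)]; simp
    · push Not at h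
      obtain ⟨i₀, hi₀, hne⟩ := h
      refine Or.inr ⟨i₀, hi₀, p, ?_, fun i => hM i.1 (mem_of_mem_erase i.2)⟩
      simp only [mem_filter, Nat.mem_primeFactors, ne_eq, Int.natAbs_eq_zero]
      exact ⟨⟨hp, Int.natCast_dvd.1 (hM i₀ hi₀), hne⟩, hp0, hv⟩
  have hA : Pr A ≤ q ^ M.card := by
    refine (Pr_rows_le hT (fun ω => if ∀ j, vec R T ω j ≠ 0 then {()} else ∅)
      (fun ω _ y => ∑ j, sg (y j) (vec R T ω j) = 0)
      (fun ω ω' h => by simp only [vec_congr hR hT h, and_self]) (K := 1)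
      (fun ω => by split <;> simp) hq0 ?_).trans (Eq.le (by simp))
    intro ω b hb
    by_cases hv : ∀ j, vec R T ω j ≠ 0
    swap
    · rw [if_neg hv] at hb; simp at hb
    obtain ⟨p, hple, hp⟩ :=
      Nat.exists_infinite_primes (P₀ + ∑ j, (vec R T ω j).natAbs + 1)
    refine le_trans (Nat.cast_le.2 (card_le_card fun y hy => ?_))
      (hq p hp (by omega) (vec R T ω) fun j hj => ?_)
    · simp only [mem_filter, mem_univ, true_and] at hy ⊢
      rw [hy]; exact dvd_zero _
    · have h1 := Nat.le_of_dvd (Int.natAbs_pos.2 (hv j)) (Int.natCast_dvd.1 hj)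
      have h2 := single_le_sum (f := fun j => (vec R T ω j).natAbs) (fun _ _ => Nat.zero_le _)
        (mem_univ j)
      omega
  have hE : ∀ i₀ ∈ M, Pr (E i₀) ≤ (B : ℝ) * q ^ (M.card - 1) := by
    intro i₀ hi₀
    have hR' : Disjoint (M.erase i₀) R := disjoint_of_subset_left (erase_subset _ _) hR
    have hT' : Disjoint (M.erase i₀) T := disjoint_of_subset_left (erase_subset _ _) hT
    have hval : ∀ ω ω', (∀ e, Avoid (M.erase i₀) T e → ω e = ω' e) →
        rowVal ω T (vec R T ω) i₀ = rowVal ω' T (vec R T ω') i₀ := by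
      intro ω ω' h
      simp only [rowVal, rowPat, vec_congr hR' hT' h]
      refine sum_congr rfl fun j _ => ?_
      rw [h]
      intro i hi k _ he
      rcases Sym2.eq_iff.1 he with ⟨h1, -⟩ | ⟨-, h2⟩
      · exact (mem_erase.1 hi).1 h1.symm
      · exact disjoint_right.1 hT' j.2 (h2 ▸ hi)
    refine le_trans (Pr_rows_le hT'
      (fun ω => (rowVal ω T (vec R T ω) i₀).natAbs.primeFactors.filter
        (fun p => P₀ ≤ p ∧ ∀ j, ¬ (p : ℤ) ∣ vec R T ω j))
      (fun ω p y => (p : ℤ) ∣ ∑ j, sg (y j) (vec R T ω j))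
      (fun ω ω' h => by rw [hval ω ω' h, vec_congr hR' hT' h]; exact ⟨rfl, rfl⟩) (K := B)
      (fun ω => ?_) hq0 ?_) (Eq.le (by rw [card_erase_of_mem hi₀]))
    · refine (card_filter_le _ _).trans (card_primeFactors_le ?_)
      have h1 : (rowVal ω T (vec R T ω) i₀).natAbs ≤ ∑ j, (vec R T ω j).natAbs :=
        natAbs_rowVal_le ω T (vec R T ω) i₀
      have h2 : ∑ j, (vec R T ω j).natAbs ≤ T.card * (2 * T.card + 2) ^ T.card := by
        unfold vec
        exact (kerVec_spec (fun r : R => rowPat ω T r) hcard).2.1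
      have h3 := size_le (t := T.card) (n := Fintype.card ι) (card_le_univ T)
      rw [← hB] at h3
      exact (h1.trans h2).trans h3
    · intro ω p hp
      simp only [mem_filter, Nat.mem_primeFactors] at hp
      have h4 := hq p hp.1.1 hp.2.1 (vec R T ω) hp.2.2
      refine le_trans (Nat.cast_le.2 (card_le_card fun y hy => ?_)) h4
      exact (@mem_filter _ _ (_) _ _).2 ((@mem_filter _ _ (_) _ _).1 hy)
  calc Pr (Core P₀ R T M) ≤ Pr (fun ω => A ω ∨ ∃ i₀ ∈ M, E i₀ ω) := Pr_mono hsub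
    _ ≤ Pr A + ∑ i₀ ∈ M, Pr (E i₀) := (Pr_or _ _).trans (add_le_add_right (Pr_exists _ _) _)
    _ ≤ q ^ (M.card - 1) + ∑ _i ∈ M, (B : ℝ) * q ^ (M.card - 1) :=
        add_le_add (hA.trans (pow_le_pow_of_le_one hq0 hq1 (Nat.sub_le _ _))) (sum_le_sum hE)
    _ = _ := by rw [sum_const, nsmul_eq_mul]; ring

end Vale.Agent.P160R.Zeros
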