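import Vale.Agent.P160R.Zeros.Bulk

/-!
# The cases of a kernel vector with many zeros
-/

namespace Vale.Agent.P160R.Zeros

open Finset Matrix
open scoped Classical

variable {ι : Type} [Fintype ι] [DecidableEq ι]

omit [DecidableEq ι] in
theorem cast_mulVec {A : Type} [Ring A] (ω : Sym2 ι → Bool) (z : ι → ℤ) (i : ι) :
    (symM A ω).mulVec (fun j => (z j : A)) i = ((symM ℤ ω).mulVec z i : A) := by
  simp only [mulVec, dotProduct, symM_mul, Int.cast_sum]
  exact sum_congr rfl fun j _ => (map_sg (Int.castAddHom A) _ _).symm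

omit [DecidableEq ι] in
/-- A kernel vector modulo `p ^ s` has many units. -/
theorem many_units (hn : 11 ≤ root4 (Fintype.card ι)) {ω : Sym2 ι → Bool} (h2 : ¬ FewTwo ω)
    (h3 : ¬ FewOdd ω) {p s : ℕ} (hp : p.Prime) (hm : ZeroMod p s (Fintype.card ι)) {z : ι → ℤ}
    (hu : ∃ i, ¬ (p : ℤ) ∣ z i) (hAz : ∀ i, ((p ^ s : ℕ) : ℤ) ∣ (symM ℤ ω).mulVec z i) :
    uMin (Fintype.card ι) ≤ (univ.filter fun j => ¬ (p : ℤ) ∣ z j).card := by
  obtain ⟨hs, hlo, -⟩ := hm
  obtain ⟨i₀, hi₀⟩ := hu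
  by_contra hc
  rw [not_le] at hc
  rcases eq_or_ne p 2 with rfl | hp2
  · have hs2 : 2 ≤ s := by
      by_contra h
      obtain rfl : s = 1 := by omega
      have : 11 ^ 4 ≤ Fintype.card ι := by
        refine le_trans (Nat.pow_le_pow_left hn 4) ?_
        calc root4 (Fintype.card ι) ^ 4 = (root4 (Fintype.card ι) ^ 2) ^ 2 := by ring
          _ ≤ Nat.sqrt (Fintype.card ι) ^ 2 := Nat.pow_le_pow_left (Nat.sqrt_le' _) 2
          _ ≤ _ := Nat.sqrt_le' _
      nlinarith
    have heven : ∀ x : ℤ, (x : ZMod 4) + (x : ZMod 4) = 0 ↔ (2 : ℤ) ∣ x := fun x => by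
      rw [← Int.cast_add, ZMod.intCast_zmod_eq_zero_iff_dvd]; push_cast; omega
    refine h2 ⟨fun j => (z j : ZMod 4), funext fun i => ?_, ⟨i₀, fun h => hi₀ ((heven _).1 h)⟩, ?_⟩
    · rw [cast_mulVec, Pi.zero_apply, ZMod.intCast_zmod_eq_zero_iff_dvd]
      refine dvd_trans ?_ (hAz i)
      exact Int.natCast_dvd_natCast.2 (show 2 ^ 2 ∣ 2 ^ s from pow_dvd_pow 2 hs2)
    · refine lt_of_le_of_lt (Eq.le (congrArg card (filter_congr fun j _ => ?_))) hc
      exact not_congr (heven (z j))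
  · have : Fact p.Prime := ⟨hp⟩
    refine h3 ⟨p, hp, lt_of_le_of_ne hp.two_le (Ne.symm hp2), fun j => (z j : ZMod p),
      fun h => hi₀ ((ZMod.intCast_zmod_eq_zero_iff_dvd _ _).1 (congrFun h i₀)),
      funext fun i => ?_, ?_⟩
    · rw [cast_mulVec, Pi.zero_apply, ZMod.intCast_zmod_eq_zero_iff_dvd]
      exact dvd_trans (Int.natCast_dvd_natCast.2 (dvd_pow_self p (by omega))) (hAz i)
    · refine lt_of_le_of_lt (Eq.le (congrArg card (filter_congr fun j _ => ?_))) hc
      exact not_congr (ZMod.intCast_zmod_eq_zero_iff_dvd _ _)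

/-- Many zeros fall into one of the two bad events. -/
theorem split_cases (hn : 11 ≤ root4 (Fintype.card ι)) {ω : Sym2 ι → Bool} (h2 : ¬ FewTwo ω)
    (h3 : ¬ FewOdd ω) (hD : ¬ Defic ω) {p s : ℕ} (hp : p.Prime)
    (hm : ZeroMod p s (Fintype.card ι)) {z : ι → ℤ} (hu : ∃ i, ¬ (p : ℤ) ∣ z i)
    (hAz : ∀ i, ((p ^ s : ℕ) : ℤ) ∣ (symM ℤ ω).mulVec z i) {Z : ℕ}
    (hZ : Z ≤ Nat.card {i // ((p ^ s : ℕ) : ℤ) ∣ z i}) : BadBig Z ω ∨ BadSmall Z ω := by
  have hmany := many_units hn h2 h3 hp hm hu hAz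
  obtain ⟨hs, hlo, hcase⟩ := hm
  set n := Fintype.card ι
  set N := p ^ s with hN
  have hZ' : Z ≤ (univ.filter fun i => (N : ℤ) ∣ z i).card := by
    refine hZ.trans (Eq.le ?_)
    rw [Nat.card_eq_fintype_card, Fintype.card_subtype]
  by_cases hsmall : N ≤ n ^ 2
  · refine Or.inr ?_
    have hN0 : 0 < N := pow_pos hp.pos s
    set T := univ.filter fun j => ¬ (N : ℤ) ∣ z j with hT
    have hTc : (Tᶜ : Finset ι) = univ.filter fun i => (N : ℤ) ∣ z i := by ext; simp [T]
    have hps : (p, s) ∈ moduli n := by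
      simp only [moduli, mem_filter, mem_product, mem_range]
      have h1 : p ≤ N := Nat.le_self_pow (by omega) p
      have h4 : s < N := Nat.lt_pow_self hp.one_lt
      exact ⟨⟨by omega, by omega⟩, hp, hs, hsmall, hlo⟩
    refine ⟨T, hTc ▸ hZ', (p, s), hps, cands_le hD T hps, fun j => z j.1 % (N : ℤ), ?_, ?_⟩
    · have hsum : ∀ i, (N : ℤ) ∣ ∑ j : T, symM ℤ ω i j.1 * (z j.1 % (N : ℤ)) := by
        intro i
        have h := (ZMod.intCast_zmod_eq_zero_iff_dvd _ N).2 (hAz i)
        rw [← cast_mulVec, mulVec_eq_sum ω T (fun j hj => ?_)] at h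
        · rw [← ZMod.intCast_zmod_eq_zero_iff_dvd, Int.cast_sum]
          refine Eq.trans (sum_congr rfl fun j _ => ?_) h
          rw [symM_mul]
          refine (map_sg (Int.castAddHom (ZMod N)) _ _).trans (congrArg (sg _) ?_)
          exact ZMod.intCast_mod _ _
        · simp only [T, mem_filter, mem_univ, true_and, not_not] at hj
          exact (ZMod.intCast_zmod_eq_zero_iff_dvd _ N).2 hj
      simp only [cands, zk, mem_filter]
      refine ⟨⟨emod_mem_box hN0 _, fun i => ?_⟩, ?_⟩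
      · rw [block, symM_restrict]
        exact hsum i.1
      · refine le_trans hmany ?_
        have hpN : (p : ℤ) ∣ (N : ℤ) := Int.natCast_dvd_natCast.2 (dvd_pow_self p (by omega))
        have hiff : ∀ x : ℤ, (p : ℤ) ∣ x % (N : ℤ) ↔ (p : ℤ) ∣ x := fun x => by
          rw [Int.emod_def]; exact dvd_sub_left (dvd_mul_of_dvd_left hpN _)
        refine le_trans (card_le_card (t := ((univ : Finset T).filter fun j : T =>
          ¬ (p : ℤ) ∣ z j.1 % (N : ℤ)).map ⟨Subtype.val, Subtype.val_injective⟩) fun j hj => ?_)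
          (Eq.le (card_map _))
        simp only [mem_filter, mem_univ, true_and] at hj
        have hjT : j ∈ T := by
          simp only [T, mem_filter, mem_univ, true_and]
          exact fun h => hj (hpN.trans h)
        exact mem_map.2 ⟨⟨j, hjT⟩, mem_filter.2 ⟨mem_univ _, fun h => hj ((hiff _).1 h)⟩, rfl⟩
    · intro i
      have h := (ZMod.intCast_zmod_eq_zero_iff_dvd _ N).2 (hAz i.1)
      rw [← cast_mulVec, mulVec_eq_sum ω T (fun j hj => ?_)] at h
      · refine (ZMod.intCast_zmod_eq_zero_iff_dvd _ N).1 ?_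
        rw [cast_rowVal]
        refine Eq.trans (sum_congr rfl fun j _ => ?_) h
        exact congrArg (sg _) (ZMod.intCast_mod _ _)
      · simp only [T, mem_filter, mem_univ, true_and, not_not] at hj
        exact (ZMod.intCast_zmod_eq_zero_iff_dvd _ N).2 hj
  · refine Or.inl ?_
    obtain rfl : s = 1 := hcase.resolve_right hsmall
    have : Fact p.Prime := ⟨hp⟩
    have hNp : N = p := pow_one p
    rw [hNp, not_le] at hsmall
    obtain ⟨i₀, hi₀⟩ := hu
    set zp : ι → ZMod p := fun j => (z j : ZMod p)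
    have hzp : zp ≠ 0 := fun h => hi₀ ((ZMod.intCast_zmod_eq_zero_iff_dvd _ _).1 (congrFun h i₀))
    have hker : (symM (ZMod p) ω).mulVec zp = 0 := funext fun i => by
      rw [cast_mulVec, Pi.zero_apply, ZMod.intCast_zmod_eq_zero_iff_dvd]
      have := hAz i; rwa [hNp] at this
    have hn14 : 2 ≤ n ^ 2 := by
      have : root4 n ≤ n := (Nat.sqrt_le_self _).trans (Nat.sqrt_le_self _)
      change 11 ≤ root4 n at hn
      nlinarith
    have hp2 : p ≠ 2 := by omega
    obtain ⟨T, R, hTz, ⟨z', hz', hk', hT'⟩, hRT, hrk, hv, hall⟩ := kernel_core ω hzp hker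
    have hrank := rank_of_not_defic hD T hp hp2
    change T.card < _ + dMax n at hrank
    refine ⟨T, R, ?_, show (R \ T).card ≤ dMax n by omega, ?_, hRT, p, hp, ?_, hv,
      fun i _ => hall i⟩
    · by_contra hlt
      rw [not_le] at hlt
      refine h3 ⟨p, hp, by omega, z', hz', hk', lt_of_le_of_lt (Eq.le ?_) hlt⟩
      refine congrArg card ?_
      ext j
      simp [(hT' j)]
    · refine hZ'.trans (card_le_card fun i hi => ?_)
      simp only [mem_filter, mem_univ, true_and, hNp] at hi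
      rw [mem_compl]
      exact fun hiT => hTz i hiT ((ZMod.intCast_zmod_eq_zero_iff_dvd _ _).2 hi)
    · change n ^ 2 + 1 ≤ p
      omega

end Vale.Agent.P160R.Zeros
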