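import Vale.Agent.P160R.Zeros.Fields

/-!
# Kernel vectors modulo a prime have many units

For the prime two this is stated modulo four.
-/

namespace Vale.Agent.P160R.Zeros

open Finset Matrix
open scoped Classical

variable {ι : Type} [Fintype ι] [DecidableEq ι]

/-- The fourth root, rounded down. -/
def root4 (n : ℕ) : ℕ := Nat.sqrt (Nat.sqrt n)

/-- The number of units asked for. -/
def uMin (n : ℕ) : ℕ := root4 n ^ 3

/-- Too few units modulo four. -/
def FewTwo (ω : Sym2 ι → Bool) : Prop :=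
  ∃ z : ι → ZMod 4, (symM (ZMod 4) ω).mulVec z = 0 ∧ (∃ j, z j + z j ≠ 0) ∧
    (univ.filter fun j => z j + z j ≠ 0).card < uMin (Fintype.card ι)

/-- Too few units modulo an odd prime. -/
def FewOdd (ω : Sym2 ι → Bool) : Prop :=
  ∃ p : ℕ, p.Prime ∧ 3 ≤ p ∧ ∃ z : ι → ZMod p, z ≠ 0 ∧ (symM (ZMod p) ω).mulVec z = 0 ∧
    (univ.filter fun j => z j ≠ 0).card < uMin (Fintype.card ι)

theorem card_small_sets (t₀ : ℕ) :
    ((univ : Finset (Finset ι)).filter fun T => T.card < t₀).card ≤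
      (Fintype.card ι + 1) ^ t₀ := by
  set g : (Fin t₀ → Option ι) → Finset ι := fun f => univ.filter fun i => ∃ k, f k = some i
  refine le_trans (card_le_card (t := (univ : Finset (Fin t₀ → Option ι)).image g) fun T hT => ?_)
    (card_image_le.trans (Eq.le (by simp)))
  simp only [mem_filter, mem_univ, true_and] at hT
  refine mem_image.2 ⟨fun k => if h : k.1 < T.card then some (T.equivFin.symm ⟨k.1, h⟩).1 else none,
    mem_univ _, ?_⟩
  ext i
  simp only [g, mem_filter, mem_univ, true_and]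
  constructor
  · rintro ⟨k, hk⟩
    split at hk
    · simp only [Option.some.injEq] at hk
      exact hk ▸ Subtype.prop _
    · simp at hk
  · intro hi
    refine ⟨⟨(T.equivFin ⟨i, hi⟩).1, lt_trans (Fin.is_lt _) hT⟩, ?_⟩
    simp [Fin.is_lt]

theorem half_pow_le {n m k : ℕ} (h : n ≤ m + k) :
    (1 / 2 : ℝ) ^ m ≤ 2 ^ k * (1 / 2 : ℝ) ^ n := by
  calc (1 / 2 : ℝ) ^ m = 2 ^ k * (1 / 2 : ℝ) ^ (m + k) := by
        rw [pow_add, mul_left_comm, ← mul_pow]; norm_num
    _ ≤ 2 ^ k * (1 / 2 : ℝ) ^ n := by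
        gcongr ?_ * ?_
        exact pow_le_pow_of_le_one (by norm_num) (by norm_num) h

omit [Fintype ι] in
theorem half_zero {p : ℕ} (hp : p.Prime) (h3 : 3 ≤ p) {T : Finset ι} (hT : T.Nonempty)
    (v : T → ℤ) (hv : ∀ j, ¬ (p : ℤ) ∣ v j) :
    ((univ.filter fun y : T → Bool => (p : ℤ) ∣ ∑ j, sg (y j) (v j)).card : ℝ) ≤
      1 / 2 * 2 ^ T.card := by
  have : Fact p.Prime := ⟨hp⟩
  have := ball_half (fun j => (v j : ZMod p)) ?_ 0
  · rw [Fintype.card_coe] at this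
    refine le_trans (Nat.cast_le.2 (card_le_card fun y hy => ?_)) this
    simp only [mem_filter, mem_univ, true_and] at hy ⊢
    have h0 := (ZMod.intCast_zmod_eq_zero_iff_dvd _ p).2 hy
    rw [Int.cast_sum] at h0
    refine Eq.trans (sum_congr rfl fun j _ => ?_) h0
    exact (map_sg (Int.castAddHom (ZMod p)) _ _).symm
  · obtain ⟨j, hj⟩ := hT
    refine ⟨⟨j, hj⟩, fun h => hv ⟨j, hj⟩ ?_⟩
    rw [← Int.cast_add, ZMod.intCast_zmod_eq_zero_iff_dvd, ← two_mul] at h
    refine ((Int.Prime.dvd_mul' hp h).resolve_left fun h2 => ?_)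
    have := Int.le_of_dvd (by norm_num) h2
    omega

theorem fewOdd_prob :
    Pr (FewOdd (ι := ι)) ≤
      (4 * (Fintype.card ι + 1) : ℝ) ^ (4 * uMin (Fintype.card ι) + 8) *
        (1 / 2 : ℝ) ^ Fintype.card ι := by
  set n := Fintype.card ι
  set t₀ := uMin n
  set Tsets := (univ : Finset (Finset ι)).filter fun T => T.card < t₀
  set pairs := (Tsets ×ˢ Tsets).filter fun TR => TR.1.Nonempty
  have hsub : ∀ ω, FewOdd ω → ∃ TR ∈ pairs, Core 3 TR.2 TR.1 (TR.1 ∪ TR.2)ᶜ ω := by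
    rintro ω ⟨p, hp, hp3, z, hz, hker, hcard⟩
    have : Fact p.Prime := ⟨hp⟩
    obtain ⟨T, R, hTz, ⟨z', hz', -, hT'⟩, hRT, -, hv, hall⟩ := kernel_core ω hz hker
    have hTlt : T.card < t₀ :=
      lt_of_le_of_lt (card_le_card fun j hj => by simp [hTz j hj]) hcard
    refine ⟨(T, R), ?_, hRT, p, hp, hp3, hv, fun i _ => hall i⟩
    simp only [pairs, Tsets, mem_filter, mem_product, mem_univ, true_and]
    exact ⟨⟨hTlt, lt_trans hRT hTlt⟩, (Function.ne_iff.1 hz').imp fun j hj => (hT' j).2 hj⟩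
  refine ((Pr_mono hsub).trans (Pr_exists _ _)).trans ?_
  have hterm : ∀ TR ∈ pairs, Pr (Core 3 TR.2 TR.1 (TR.1 ∪ TR.2)ᶜ) ≤
      5 * ((n : ℝ) + 1) ^ 3 * (2 ^ (2 * t₀ + 1) * (1 / 2 : ℝ) ^ n) := by
    rintro ⟨T, R⟩ hTR
    simp only [pairs, Tsets, mem_filter, mem_product, mem_univ, true_and] at hTR
    refine (core_prob (disjoint_compl_left.mono_right subset_union_right)
      (disjoint_compl_left.mono_right subset_union_left) (by norm_num) (by norm_num)
      fun p hp h3 v hv => half_zero hp h3 hTR.2 v hv).trans ?_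
    gcongr ?_ * ?_
    · have hm : ((((T ∪ R)ᶜ : Finset ι).card : ℕ) : ℝ) ≤ n := by exact_mod_cast card_le_univ _
      push_cast
      have hn : (0 : ℝ) ≤ n := Nat.cast_nonneg n
      calc 1 + ((((T ∪ R)ᶜ : Finset ι).card : ℕ) : ℝ) * (3 * (n : ℝ) ^ 2 + n)
          ≤ 1 + (n : ℝ) * (3 * (n : ℝ) ^ 2 + n) := by gcongr
        _ ≤ 5 * ((n : ℝ) + 1) ^ 3 := by nlinarith [pow_nonneg hn 3, pow_nonneg hn 2]
    · refine half_pow_le ?_
      have h1 := card_union_le T R
      dsimp only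
      rw [card_compl]
      omega
  refine (sum_le_sum hterm).trans ?_
  rw [sum_const, nsmul_eq_mul]
  have hN : (pairs.card : ℝ) ≤ ((n : ℝ) + 1) ^ (2 * t₀) := by
    have h := (card_filter_le (Tsets ×ˢ Tsets) fun TR => TR.1.Nonempty).trans
      (Eq.le (card_product _ _))
    have h2 := h.trans (Nat.mul_le_mul (card_small_sets t₀) (card_small_sets t₀))
    rw [two_mul, pow_add]
    exact_mod_cast h2
  calc _ ≤ ((n : ℝ) + 1) ^ (2 * t₀) *
        (5 * ((n : ℝ) + 1) ^ 3 * (2 ^ (2 * t₀ + 1) * (1 / 2 : ℝ) ^ n)) := by gcongr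
    _ = 10 * (((n : ℝ) + 1) ^ (2 * t₀ + 3) * 2 ^ (2 * t₀)) * (1 / 2 : ℝ) ^ n := by ring
    _ ≤ (4 * ((n : ℝ) + 1)) ^ (4 * t₀ + 8) * (1 / 2 : ℝ) ^ n := by
        gcongr ?_ * _
        have h1 : (1 : ℝ) ≤ (n : ℝ) + 1 := by simp
        calc 10 * (((n : ℝ) + 1) ^ (2 * t₀ + 3) * 2 ^ (2 * t₀))
            ≤ 4 ^ 2 * (((n : ℝ) + 1) ^ (4 * t₀ + 8) * 4 ^ (4 * t₀ + 6)) := by
              gcongr ?_ * (?_ * ?_)
              · norm_num
              · exact pow_le_pow_right₀ h1 (by omega)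
              · exact (pow_le_pow_left₀ (by norm_num) (by norm_num) _).trans
                  (pow_le_pow_right₀ (by norm_num) (by omega))
          _ = _ := by rw [mul_pow]; ring

theorem fewTwo_prob :
    Pr (FewTwo (ι := ι)) ≤
      (4 * (Fintype.card ι + 1) : ℝ) ^ (4 * uMin (Fintype.card ι) + 8) *
        (1 / 2 : ℝ) ^ Fintype.card ι := by
  set n := Fintype.card ι
  set t₀ := uMin n
  set Tsets := (univ : Finset (Finset ι)).filter fun T => T.card < t₀
  set F : (T : Finset ι) → Finset ((T → ZMod 4) × ZMod 4) :=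
    fun T => univ.filter fun vc => ∃ j, vc.1 j + vc.1 j ≠ 0
  have hsub : ∀ ω : Sym2 ι → Bool, FewTwo ω → ∃ T ∈ Tsets, ∃ vc ∈ F T, ∀ i : (Tᶜ : Finset ι),
      ∑ j, sg (rowPat ω T i j) (vc.1 j) = vc.2 := by
    rintro ω ⟨z, hker, ⟨j₀, hj₀⟩, hcard⟩
    set T := univ.filter fun j => z j + z j ≠ 0
    refine ⟨T, by simp [Tsets]; exact hcard, (fun j => z j.1, -∑ j ∈ Tᶜ, z j), ?_, fun i => ?_⟩
    · simp only [F, mem_filter, mem_univ, true_and]
      exact ⟨⟨j₀, by simp [T, hj₀]⟩, hj₀⟩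
    · have h := congrFun hker i.1
      simp only [mulVec, dotProduct, symM_mul, Pi.zero_apply] at h
      rw [← sum_add_sum_compl T, ← sum_coe_sort T] at h
      have e : ∑ j ∈ Tᶜ, sg (ω s(i.1, j)) (z j) = ∑ j ∈ Tᶜ, z j := by
        refine sum_congr rfl fun j hj => ?_
        simp only [T, mem_compl, mem_filter, mem_univ, true_and, not_not] at hj
        unfold sg; split
        · rfl
        · exact neg_eq_of_add_eq_zero_left hj
      rw [e] at h
      exact eq_neg_of_add_eq_zero_left h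
  refine ((Pr_mono hsub).trans (Pr_exists _ _)).trans ?_
  have hterm : ∀ T ∈ Tsets, Pr (fun ω : Sym2 ι → Bool => ∃ vc ∈ F T, ∀ i : (Tᶜ : Finset ι),
      ∑ j, sg (rowPat ω T i j) (vc.1 j) = vc.2) ≤ 4 * 8 ^ t₀ * (1 / 2 : ℝ) ^ n := by
    intro T hT
    simp only [Tsets, mem_filter, mem_univ, true_and] at hT
    refine (Pr_rows_le disjoint_compl_left (fun _ => F T)
      (fun _ vc y => ∑ j, sg (y j) (vc.1 j) = vc.2) (fun _ _ _ => ⟨rfl, rfl⟩) (K := 4 ^ (T.card + 1))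
      (fun _ => (card_le_univ _).trans (Eq.le (by simp [pow_succ]))) (q := 1 / 2) (by norm_num)
      fun _ vc hvc => ?_).trans ?_
    · have := ball_half vc.1 (by simpa [F] using hvc) vc.2
      rw [Fintype.card_coe] at this
      convert! this using 4
      ext; simp
    · calc ((4 ^ (T.card + 1) : ℕ) : ℝ) * (1 / 2) ^ (Tᶜ : Finset ι).card
          ≤ 4 ^ (t₀ + 1) * (2 ^ t₀ * (1 / 2 : ℝ) ^ n) := by
            push_cast
            gcongr ?_ * ?_
            · exact pow_le_pow_right₀ (by norm_num) (by omega)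
            · refine half_pow_le ?_
              rw [card_compl]; omega
        _ = _ := by rw [pow_succ, show (8 : ℝ) = 4 * 2 by norm_num, mul_pow]; ring
  refine (sum_le_sum hterm).trans ?_
  rw [sum_const, nsmul_eq_mul]
  have hN : (Tsets.card : ℝ) ≤ ((n : ℝ) + 1) ^ t₀ := by exact_mod_cast card_small_sets t₀
  calc _ ≤ ((n : ℝ) + 1) ^ t₀ * (4 * 8 ^ t₀ * (1 / 2 : ℝ) ^ n) := by gcongr
    _ = (((n : ℝ) + 1) ^ t₀ * (4 * 8 ^ t₀)) * (1 / 2 : ℝ) ^ n := by ring
    _ ≤ (4 * ((n : ℝ) + 1)) ^ (4 * t₀ + 8) * (1 / 2 : ℝ) ^ n := by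
        gcongr ?_ * _
        rw [mul_pow, mul_comm ((4 : ℝ) ^ (4 * t₀ + 8))]
        refine mul_le_mul (pow_le_pow_right₀ (by simp) (by omega)) ?_ (by positivity) (by positivity)
        calc (4 : ℝ) * 8 ^ t₀ ≤ 4 * (4 ^ 2) ^ t₀ := by gcongr; norm_num
          _ ≤ _ := by
            rw [← pow_mul, ← pow_succ']
            exact pow_le_pow_right₀ (by norm_num) (by omega)

end Vale.Agent.P160R.Zeros
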